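import Mathlib

/-!
The area theorem for Faber functions with a pole of order at most two, proved through the
vanishing of the integral of a Jacobian determinant.
-/

namespace Vale.Agent.P142.Area

open Complex MeasureTheory Metric Set Filter Topology ComplexConjugate
open scoped Real ContDiff

noncomputable section

/-- An injective holomorphic function on an open set has nonvanishing derivative. -/
lemma deriv_ne_zero_of_injOn {f : ℂ → ℂ} {U : Set ℂ} (hU : IsOpen U) (hf : DifferentiableOn ℂ f U)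
    (hinj : InjOn f U) {a : ℂ} (ha : a ∈ U) : deriv f a ≠ 0 := by
  intro h0
  have han : AnalyticAt ℂ f a := hf.analyticAt (hU.mem_nhds ha)
  have han' : AnalyticAt ℂ (fun z => f z - f a) a := han.sub analyticAt_const
  have hne : ¬ ∀ᶠ z in 𝓝 a, f z - f a = 0 := by
    intro h
    have h' : ∀ᶠ z in 𝓝[≠] a, f z - f a = 0 ∧ z ∈ U :=
      nhdsWithin_le_nhds (h.and (hU.mem_nhds ha))
    obtain ⟨z, ⟨hz, hzU⟩, hza⟩ := (h'.and self_mem_nhdsWithin).exists
    exact hza (hinj hzU ha (sub_eq_zero.1 hz))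
  obtain ⟨m, g, hg, hg0, hfg⟩ := han'.exists_eventuallyEq_pow_smul_nonzero_iff.2 hne
  have hm : 2 ≤ m := by
    by_contra hm
    interval_cases m
    · have := hfg.self_of_nhds
      simp at this
      exact hg0 this.symm
    · have h1 : HasDerivAt (fun z => f z - f a) (g a) a := by
        have := ((hasDerivAt_id a).sub_const a).mul hg.differentiableAt.hasDerivAt
        refine (this.congr_of_eventuallyEq ?_).congr_deriv (by simp)
        filter_upwards [hfg] with z hz
        simpa using hz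
      have h2 : HasDerivAt (fun z => f z - f a) 0 a := by
        rw [← h0]
        exact (han.differentiableAt.hasDerivAt).sub_const _
      exact hg0 (h1.unique h2)
  have hm0 : (m : ℂ) ≠ 0 := by exact_mod_cast (by omega : m ≠ 0)
  obtain ⟨c, hc⟩ := IsAlgClosed.exists_pow_nat_eq (g a) (by omega : 0 < m)
  have hc0 : c ≠ 0 := by
    rintro rfl
    rw [zero_pow (by omega)] at hc
    exact hg0 hc.symm
  set φ : ℂ → ℂ := fun z => (z - a) * (c * Complex.exp (Complex.log (g z / g a) / m)) with hφ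
  have hquot : AnalyticAt ℂ (fun z => g z / g a) a := hg.div_const
  have hinner : AnalyticAt ℂ (fun z => c * Complex.exp (Complex.log (g z / g a) / m)) a := by
    refine analyticAt_const.mul ((AnalyticAt.div_const (hquot.clog ?_)).cexp)
    simp [div_self hg0]
  have hφa : AnalyticAt ℂ φ a := (analyticAt_id.sub analyticAt_const).mul hinner
  have hφd : deriv φ a = c := by
    have := ((hasDerivAt_id a).sub_const a).mul hinner.differentiableAt.hasDerivAt
    refine this.deriv.trans ?_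
    simp [div_self hg0]
  have hstrict : HasStrictDerivAt φ c a := hφd ▸ hφa.hasStrictDerivAt
  have hmap := hstrict.map_nhds_eq hc0
  have hgne : ∀ᶠ z in 𝓝 a, g z ≠ 0 := hg.continuousAt.eventually_ne hg0
  have hV : ∀ᶠ z in 𝓝 a, z ∈ U ∧ f z - f a = φ z ^ m := by
    filter_upwards [hU.mem_nhds ha, hfg, hgne] with z hzU hz hgz
    refine ⟨hzU, ?_⟩
    rw [hz, hφ, smul_eq_mul, mul_pow, mul_pow, hc, ← Complex.exp_nat_mul,
      mul_div_cancel₀ _ hm0, Complex.exp_log (div_ne_zero hgz hg0), mul_div_cancel₀ _ hg0]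
  have himg : φ '' {z | z ∈ U ∧ f z - f a = φ z ^ m} ∈ 𝓝 (0 : ℂ) := by
    have : φ '' {z | z ∈ U ∧ f z - f a = φ z ^ m} ∈ 𝓝 (φ a) := by
      rw [← hmap]; exact image_mem_map hV
    simpa [hφ] using this
  obtain ⟨r, hr, hball⟩ := Metric.mem_nhds_iff.1 himg
  set rt : ℂ := Complex.exp (2 * π * I / m) with hrtdef
  have hprim : IsPrimitiveRoot rt m := Complex.isPrimitiveRoot_exp m (by omega)
  have hrtne : rt ≠ 1 := hprim.ne_one (by omega)
  have hrtnorm : ‖rt‖ = 1 := IsPrimitiveRoot.norm'_eq_one hprim (by omega)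
  obtain ⟨u, hu0, hur⟩ : ∃ u : ℂ, u ≠ 0 ∧ ‖u‖ < r :=
    ⟨(r / 2 : ℝ), by simpa using hr.ne', by
      rw [Complex.norm_real, Real.norm_of_nonneg (by positivity)]; linarith⟩
  obtain ⟨z₁, ⟨hz₁U, hz₁⟩, hz₁u⟩ := hball (mem_ball_zero_iff.2 hur)
  obtain ⟨z₂, ⟨hz₂U, hz₂⟩, hz₂u⟩ :=
    hball (mem_ball_zero_iff.2 (by rw [norm_mul, hrtnorm, one_mul]; exact hur) :
      rt * u ∈ ball (0 : ℂ) r)
  have heq : f z₁ = f z₂ := by
    have e : f z₁ - f a = f z₂ - f a := by
      rw [hz₁, hz₂, hz₁u, hz₂u, mul_pow, hprim.pow_eq_one, one_mul]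
    exact sub_left_inj.1 e
  have := hinj hz₁U hz₂U heq
  rw [this, hz₂u] at hz₁u
  exact hrtne (mul_right_cancel₀ hu0 (by rw [one_mul]; exact hz₁u))

/-- The Jacobian determinant of a map of the plane. -/
def jac (G : ℂ → ℂ) (z : ℂ) : ℝ := (conj (fderiv ℝ G z 1) * fderiv ℝ G z I).im

lemma jac_eq_of_fderiv {G : ℂ → ℂ} {z p q : ℂ}
    (h1 : fderiv ℝ G z 1 = p + q) (hI : fderiv ℝ G z I = (p - q) * I) :
    jac G z = ‖p‖ ^ 2 - ‖q‖ ^ 2 := by
  rw [jac, h1, hI, Complex.sq_norm, Complex.sq_norm, Complex.normSq_apply, Complex.normSq_apply]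
  simp [Complex.mul_im, Complex.mul_re]
  ring

/-- The integral of the Jacobian of a compactly supported `C²` map vanishes. -/
lemma integral_jac_eq_zero {G : ℂ → ℂ} (hG : ContDiff ℝ 2 G) (hc : HasCompactSupport G) :
    Integrable (fun z => jac G z) ∧ ∫ z, jac G z = 0 := by
  set a : ℂ → ℂ := fun z => fderiv ℝ G z 1 with ha
  set b : ℂ → ℂ := fun z => fderiv ℝ G z I with hb
  have hfd : ContDiff ℝ 1 (fderiv ℝ G) := hG.fderiv_right (by norm_num)
  have hac : ContDiff ℝ 1 a := hfd.clm_apply contDiff_const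
  have hbc : ContDiff ℝ 1 b := hfd.clm_apply contDiff_const
  have hcs : ∀ v, HasCompactSupport (fun z => fderiv ℝ G z v) := fun v => hc.fderiv_apply ℝ v
  have hconj : Differentiable ℝ (fun z => conj (G z)) :=
    (conjCLE.toContinuousLinearMap.differentiable).comp (hG.differentiable (by norm_num))
  have hconjd : ∀ z v, fderiv ℝ (fun z => conj (G z)) z v = conj (fderiv ℝ G z v) := by
    intro z v
    have h := (conjCLE.toContinuousLinearMap.hasFDerivAt (x := G z)).comp z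
      ((hG.differentiable (by norm_num)) z).hasFDerivAt
    rw [show (fun z => conj (G z)) = conjCLE.toContinuousLinearMap ∘ G from rfl, h.fderiv]
    rfl
  have hint : ∀ (u w : ℂ → ℂ), Continuous u → Continuous w → HasCompactSupport w →
      Integrable (fun z => u z * w z) := fun u w hu hw hw' =>
    (hu.mul hw).integrable_of_hasCompactSupport hw'.mul_left
  have hGc : Continuous fun z => conj (G z) := hconj.continuous
  have ibp : ∀ (w : ℂ → ℂ) (v : ℂ), ContDiff ℝ 1 w → HasCompactSupport w →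
      ∫ z, conj (G z) * fderiv ℝ w z v = -∫ z, conj (fderiv ℝ G z v) * w z := by
    intro w v hw hw'
    have hwd : Continuous fun z => fderiv ℝ w z v :=
      (hw.continuous_fderiv (by norm_num)).clm_apply continuous_const
    rw [integral_mul_fderiv_eq_neg_fderiv_mul_of_integrable]
    · simp only [hconjd]
    · simp only [hconjd]
      exact hint _ _ (Complex.continuous_conj.comp
        ((hG.continuous_fderiv (by norm_num)).clm_apply continuous_const)) hw.continuous hw'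
    · exact hint _ _ hGc hwd (hw'.fderiv_apply ℝ v)
    · exact hint _ _ hGc hw.continuous hw'
    · exact fun z _ => hconj z
    · exact fun z _ => (hw.differentiable (by norm_num)) z
  have hsymm : ∀ z, fderiv ℝ b z 1 = fderiv ℝ a z I := by
    intro z
    have hs := (hG.contDiffAt (x := z)).isSymmSndFDerivAt (by simp)
    rw [ha, hb, fderiv_clm_apply ((hfd.differentiable (by norm_num)) z) (differentiableAt_const _),
      fderiv_clm_apply ((hfd.differentiable (by norm_num)) z) (differentiableAt_const _)]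
    simpa using hs.eq 1 I
  have e1 := ibp b 1 hbc (hcs I)
  have e2 := ibp a I hac (hcs 1)
  have heq : ∫ z, conj (a z) * b z = ∫ z, conj (b z) * a z := by
    have : (fun z => conj (G z) * fderiv ℝ b z 1) = fun z => conj (G z) * fderiv ℝ a z I := by
      funext z; rw [hsymm]
    rw [this, e2] at e1
    exact (neg_inj.1 e1).symm
  have hi1 : Integrable (fun z => conj (a z) * b z) :=
    hint _ _ (Complex.continuous_conj.comp hac.continuous) hbc.continuous (hcs I)
  have hjac : ∀ z, jac G z = (conj (a z) * b z).im := fun z => rfl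
  refine ⟨by simp only [hjac]; exact hi1.im, ?_⟩
  simp only [hjac]
  have h2 : (∫ z, conj (a z) * b z) = conj (∫ z, conj (a z) * b z) := by
    conv_lhs => rw [heq]
    rw [← integral_conj]
    congr 1
    funext z
    rw [map_mul, Complex.conj_conj, mul_comm]
  have h3 := integral_im hi1
  simp only [RCLike.im_to_complex] at h3
  rw [h3]
  have := congrArg Complex.im h2
  rw [Complex.conj_im] at this
  linarith

/-- Polar coordinates on a disk. -/
lemma setIntegral_ball_polar {G : ℂ → ℂ} {ρ : ℝ}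
    (hG : ContinuousOn G (closedBall 0 ρ)) :
    ∫ z in closedBall (0 : ℂ) ρ, G z =
      ∫ r in Ioc 0 ρ, ((2 * π * r : ℝ) : ℂ) * Real.circleAverage G 0 r := by
  rw [← MeasureTheory.integral_indicator measurableSet_closedBall,
    ← Complex.integral_comp_polarCoord_symm, polarCoord_target]
  set H : ℝ × ℝ → ℂ := fun p => p.1 • G (Complex.polarCoord.symm p) with hH
  have hnorm : ∀ p : ℝ × ℝ, 0 < p.1 → ‖Complex.polarCoord.symm p‖ = p.1 := by
    intro p hp
    rw [Complex.norm_polarCoord_symm, abs_of_pos hp]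
  have hset : Set.EqOn (fun p => p.1 • (closedBall (0 : ℂ) ρ).indicator G (Complex.polarCoord.symm p))
      ((Ioc (0 : ℝ) ρ ×ˢ Ioo (-π) π).indicator H) (Ioi (0 : ℝ) ×ˢ Ioo (-π) π) := by
    intro p hp
    obtain ⟨hp1, hp2⟩ := hp
    by_cases h : p.1 ≤ ρ
    · have hm : p ∈ Ioc (0 : ℝ) ρ ×ˢ Ioo (-π) π := ⟨⟨hp1, h⟩, hp2⟩
      rw [indicator_of_mem hm]
      simp only [hH]
      rw [indicator_of_mem (mem_closedBall_zero_iff.2 (by rw [hnorm p hp1]; exact h))]
    · rw [indicator_of_notMem (fun hh : p ∈ Ioc (0 : ℝ) ρ ×ˢ Ioo (-π) π => h hh.1.2)]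
      simp only
      rw [indicator_of_notMem (fun hh => h (by
        have := mem_closedBall_zero_iff.1 hh; rwa [hnorm p hp1] at this)), smul_zero]
  rw [setIntegral_congr_fun (measurableSet_Ioi.prod measurableSet_Ioo) hset,
    setIntegral_indicator (measurableSet_Ioc.prod measurableSet_Ioo),
    inter_eq_self_of_subset_right (Set.prod_mono Ioc_subset_Ioi_self subset_rfl)]
  have hsym : Continuous fun p : ℝ × ℝ => Complex.polarCoord.symm p := by
    simp only [Complex.polarCoord_symm_apply]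
    fun_prop
  have hint : IntegrableOn H (Ioc (0 : ℝ) ρ ×ˢ Ioo (-π) π) := by
    refine IntegrableOn.mono_set ?_ (Set.prod_mono Ioc_subset_Icc_self Ioo_subset_Icc_self)
    refine ContinuousOn.integrableOn_compact (isCompact_Icc.prod isCompact_Icc) ?_
    refine continuous_fst.continuousOn.smul (hG.comp hsym.continuousOn fun p hp => ?_)
    rw [mem_closedBall_zero_iff, Complex.norm_polarCoord_symm, abs_of_nonneg hp.1.1]
    exact hp.1.2
  rw [Measure.volume_eq_prod] at hint ⊢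
  rw [setIntegral_prod _ hint]
  refine setIntegral_congr_fun measurableSet_Ioc fun r hr => ?_
  have hci : ∫ θ in Ioo (-π) π, G (circleMap 0 r θ) = ∫ θ in (0)..(2 * π), G (circleMap 0 r θ) := by
    rw [← integral_Ioc_eq_integral_Ioo, ← intervalIntegral.integral_of_le (by linarith [Real.pi_pos])]
    have hper : Function.Periodic (fun θ => G (circleMap 0 r θ)) (2 * π) := fun θ => by
      simp only [periodic_circleMap (0 : ℂ) r θ]
    have := hper.intervalIntegral_add_eq (-π) 0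
    rw [zero_add, show -π + 2 * π = π by ring] at this
    exact this
  rw [Real.circleAverage_def, ← hci]
  simp only [hH]
  rw [integral_smul, Complex.real_smul, Complex.real_smul]
  have hcm : ∀ θ : ℝ, Complex.polarCoord.symm (r, θ) = circleMap 0 r θ := by
    intro θ
    rw [Complex.polarCoord_symm_apply, circleMap, zero_add, Complex.exp_mul_I]
    simp [Complex.ofReal_cos, Complex.ofReal_sin]
  simp only [hcm]
  have hpi : (π : ℝ) ≠ 0 := Real.pi_ne_zero
  push_cast
  field_simp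

lemma norm_circleMap_zero' {r θ : ℝ} (hr : 0 ≤ r) : ‖circleMap 0 r θ‖ = r := by
  simp [circleMap, abs_of_nonneg hr]

/-- Integral of a radial function over a disk. -/
lemma setIntegral_ball_radial {φ : ℝ → ℂ} (hφ : Continuous φ) {ρ : ℝ} :
    ∫ z in closedBall (0 : ℂ) ρ, φ (‖z‖ ^ 2) =
      ∫ r in Ioc 0 ρ, ((2 * π * r : ℝ) : ℂ) * φ (r ^ 2) := by
  rw [setIntegral_ball_polar (G := fun z => φ (‖z‖ ^ 2))
    (hφ.comp (continuous_norm.pow 2)).continuousOn]
  refine setIntegral_congr_fun measurableSet_Ioc fun r hr => ?_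
  congr 1
  rw [Real.circleAverage_def]
  simp only [norm_circleMap_zero' hr.1.le, intervalIntegral.integral_const, sub_zero]
  rw [smul_smul, inv_mul_cancel₀ (by positivity), one_smul]

/-- A radial weight times a holomorphic function vanishing at the centre has zero integral. -/
lemma setIntegral_ball_radial_mul {φ : ℝ → ℂ} (hφ : Continuous φ) {H : ℂ → ℂ} {ρ R : ℝ}
    (hρR : ρ < R) (hH : DifferentiableOn ℂ H (ball 0 R)) (hH0 : H 0 = 0) :
    ∫ z in closedBall (0 : ℂ) ρ, φ (‖z‖ ^ 2) * H z = 0 := by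
  have hcont : ContinuousOn (fun z => φ (‖z‖ ^ 2) * H z) (closedBall 0 ρ) := by
    have h1 : ContinuousOn H (closedBall 0 ρ) := hH.continuousOn.mono (closedBall_subset_ball hρR)
    fun_prop
  rw [setIntegral_ball_polar (G := fun z => φ (‖z‖ ^ 2) * H z) hcont]
  refine setIntegral_eq_zero_of_forall_eq_zero fun r hr => ?_
  have havg : Real.circleAverage H 0 r = 0 := by
    rw [DiffContOnCl.circleAverage, hH0]
    rw [abs_of_pos hr.1]
    refine (hH.mono ?_).diffContOnCl
    exact (closure_ball_subset_closedBall).trans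
      (closedBall_subset_ball (hr.2.trans_lt hρR))
  have : Real.circleAverage (fun z => φ (‖z‖ ^ 2) * H z) 0 r = φ (r ^ 2) * Real.circleAverage H 0 r := by
    have hint : ∫ θ in (0)..(2 * π), φ (‖circleMap 0 r θ‖ ^ 2) * H (circleMap 0 r θ) =
        φ (r ^ 2) * ∫ θ in (0)..(2 * π), H (circleMap 0 r θ) := by
      simp only [norm_circleMap_zero' hr.1.le, intervalIntegral.integral_const_mul]
    rw [Real.circleAverage_def, Real.circleAverage_def, hint, Complex.real_smul, Complex.real_smul]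
    ring
  rw [this, havg, mul_zero, mul_zero]

/-- Radial cut off: zero for `t ≤ T / 2`, one for `t ≥ T`. -/
def cut (T t : ℝ) : ℝ := Real.smoothTransition (2 * t / T - 1)

/-- The radial factor `cut · t ^ (-l)`. -/
def psi (T : ℝ) (l : ℕ) (t : ℝ) : ℝ := cut T t * (t⁻¹) ^ l

lemma contDiff_psi {T : ℝ} (hT : 0 < T) (l : ℕ) : ContDiff ℝ 2 (psi T l) := by
  rw [contDiff_iff_contDiffAt]
  intro t
  rcases lt_or_ge t (T / 2) with h | h
  · have hev : psi T l =ᶠ[𝓝 t] fun _ => (0 : ℝ) := by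
      filter_upwards [Iio_mem_nhds h] with s (hs : s < T / 2)
      rw [psi, cut, Real.smoothTransition.zero_of_nonpos, zero_mul]
      rw [sub_nonpos, div_le_one hT]; linarith
    exact contDiffAt_const.congr_of_eventuallyEq hev
  · have ht : t ≠ 0 := by linarith
    have h1 : ContDiffAt ℝ 2 (cut T) t := by
      unfold cut
      exact (Real.smoothTransition.contDiff.of_le le_rfl).contDiffAt.comp t
        (((contDiffAt_const.mul contDiffAt_id).div_const _).sub contDiffAt_const)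
    exact h1.mul ((contDiffAt_inv ℝ ht).pow l)

lemma psi_eq {T t : ℝ} (hT : 0 < T) (h : T ≤ t) (l : ℕ) : psi T l t = (t⁻¹) ^ l := by
  rw [psi, cut, Real.smoothTransition.one_of_one_le, one_mul]
  rw [le_sub_iff_add_le, le_div_iff₀ hT]; linarith

/-- The interior modification of the Faber function. -/
def model (T : ℝ) (x₁ x₂ : ℂ) (A : ℂ → ℂ) (z : ℂ) : ℂ :=
  A z + x₁ * (psi T 1 (‖z‖ ^ 2) : ℂ) * conj z + x₂ * (psi T 2 (‖z‖ ^ 2) : ℂ) * conj z ^ 2

lemma contDiffAt_model {T R : ℝ} (hT : 0 < T) (x₁ x₂ : ℂ) {A : ℂ → ℂ}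
    (hA : DifferentiableOn ℂ A (ball 0 R)) {z : ℂ} (hz : z ∈ ball (0 : ℂ) R) :
    ContDiffAt ℝ 2 (model T x₁ x₂ A) z := by
  have h1 : ContDiffAt ℝ 2 A z :=
    ((hA.contDiffOn isOpen_ball).restrict_scalars ℝ).contDiffAt (isOpen_ball.mem_nhds hz)
  have h2 : ContDiff ℝ 2 (fun z : ℂ => ‖z‖ ^ 2) := contDiff_norm_sq ℝ
  have h3 : ∀ l, ContDiffAt ℝ 2 (fun z : ℂ => (psi T l (‖z‖ ^ 2) : ℂ)) z := fun l =>
    (Complex.ofRealCLM.contDiff.comp ((contDiff_psi hT l).comp h2)).contDiffAt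
  have h4 : ContDiffAt ℝ 2 (fun z : ℂ => conj z) z := conjCLE.toContinuousLinearMap.contDiff.contDiffAt
  exact (h1.add ((contDiffAt_const.mul (h3 1)).mul h4)).add
    ((contDiffAt_const.mul (h3 2)).mul (h4.pow 2))

lemma model_eq {T : ℝ} (hT : 0 < T) (x₁ x₂ : ℂ) (A : ℂ → ℂ) {z : ℂ} (hz : T ≤ ‖z‖ ^ 2) :
    model T x₁ x₂ A z = x₁ / z + x₂ / z ^ 2 + A z := by
  have hz0 : z ≠ 0 := by rintro rfl; simp at hz; linarith
  have hzc : conj z ≠ 0 := by simpa using hz0
  have hn : ((‖z‖ ^ 2 : ℝ) : ℂ) = z * conj z := by rw [Complex.mul_conj']; push_cast; rfl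
  rw [model, psi_eq hT hz, psi_eq hT hz]
  simp only [Complex.ofReal_pow, Complex.ofReal_inv, pow_one]
  rw [← Complex.ofReal_pow, hn]
  field_simp
  ring

/-- Pointwise Jacobian of the interior modification. -/
lemma jac_model {T R : ℝ} (hT : 0 < T) (x₁ x₂ : ℂ) {A : ℂ → ℂ}
    (hA : DifferentiableOn ℂ A (ball 0 R)) {z : ℂ} (hz : z ∈ ball (0 : ℂ) R) :
    jac (model T x₁ x₂ A) z =
      ‖deriv A z + x₁ * ((deriv (psi T 1) (‖z‖ ^ 2) : ℝ) : ℂ) * conj z ^ 2 +
          x₂ * ((deriv (psi T 2) (‖z‖ ^ 2) : ℝ) : ℂ) * conj z ^ 3‖ ^ 2 -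
        ‖x₁ * ((deriv (psi T 1) (‖z‖ ^ 2) * ‖z‖ ^ 2 + psi T 1 (‖z‖ ^ 2) : ℝ) : ℂ) +
          x₂ * ((deriv (psi T 2) (‖z‖ ^ 2) * ‖z‖ ^ 2 + 2 * psi T 2 (‖z‖ ^ 2) : ℝ) : ℂ) * conj z‖ ^ 2 := by
  have hdA : HasFDerivAt A (((1 : ℂ →L[ℂ] ℂ).smulRight (deriv A z)).restrictScalars ℝ) z :=
    ((hA.differentiableAt (isOpen_ball.mem_nhds hz)).hasDerivAt.hasFDerivAt).restrictScalars ℝ
  have hn : HasFDerivAt (fun w : ℂ => ‖w‖ ^ 2) ((2 : ℕ) • innerSL ℝ z) z :=
    (hasStrictFDerivAt_norm_sq z).hasFDerivAt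
  have hpsi : ∀ l, HasFDerivAt (fun w : ℂ => (psi T l (‖w‖ ^ 2) : ℂ))
      (Complex.ofRealCLM.comp ((deriv (psi T l) (‖z‖ ^ 2)) • ((2 : ℕ) • innerSL ℝ z))) z := fun l =>
    Complex.ofRealCLM.hasFDerivAt.comp z
      ((((contDiff_psi hT l).differentiable (by norm_num)) _).hasDerivAt.comp_hasFDerivAt z hn)
  have hconj : HasFDerivAt (fun w : ℂ => conj w) conjCLE.toContinuousLinearMap z :=
    conjCLE.toContinuousLinearMap.hasFDerivAt
  have h := (hdA.fun_add (((hpsi 1).const_mul x₁).fun_mul hconj)).fun_add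
    (((hpsi 2).const_mul x₂).fun_mul (hconj.fun_mul hconj))
  have hev : model T x₁ x₂ A =ᶠ[𝓝 z] fun i => A i + x₁ * (psi T 1 (‖i‖ ^ 2) : ℂ) * conj i +
      x₂ * (psi T 2 (‖i‖ ^ 2) : ℂ) * (conj i * conj i) := by
    refine Eventually.of_forall fun w => ?_
    simp only [model]
    ring
  have hfd := h.congr_of_eventuallyEq hev
  have hnz : ((‖z‖ : ℂ)) ^ 2 = z * conj z := (Complex.mul_conj' z).symm
  apply jac_eq_of_fderiv
  · rw [hfd.fderiv]
    simp [Complex.inner]
    have h2 : (2 : ℂ) * (z.re : ℂ) = z + conj z := by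
      rw [Complex.add_conj]; push_cast; ring
    linear_combination (x₁ * ((deriv (psi T 1) (‖z‖ ^ 2) : ℝ) : ℂ) * conj z +
      x₂ * ((deriv (psi T 2) (‖z‖ ^ 2) : ℝ) : ℂ) * conj z ^ 2) * h2 -
      (x₁ * ((deriv (psi T 1) (‖z‖ ^ 2) : ℝ) : ℂ) + x₂ * ((deriv (psi T 2) (‖z‖ ^ 2) : ℝ) : ℂ) * conj z) * hnz
  · rw [hfd.fderiv]
    simp [Complex.inner]
    have h2 : (2 : ℂ) * (z.im : ℂ) = -I * (z - conj z) := by
      rw [Complex.sub_conj]; push_cast
      linear_combination (2 * (z.im : ℂ)) * Complex.I_sq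
    linear_combination (x₁ * ((deriv (psi T 1) (‖z‖ ^ 2) : ℝ) : ℂ) * conj z +
      x₂ * ((deriv (psi T 2) (‖z‖ ^ 2) : ℝ) : ℂ) * conj z ^ 2) * h2 +
      I * (x₁ * ((deriv (psi T 1) (‖z‖ ^ 2) : ℝ) : ℂ) + x₂ * ((deriv (psi T 2) (‖z‖ ^ 2) : ℝ) : ℂ) * conj z) * hnz

/-- The primitive behind the radial integral of the antiholomorphic part. -/
lemma radial_psi {T ρ : ℝ} (hT : 0 < T) (hρ : 0 ≤ ρ) (hTρ : T ≤ ρ ^ 2) (l : ℕ) (hl : 1 ≤ l) :
    ∫ r in Ioc 0 ρ, 2 * π * r *
        ((deriv (psi T l) (r ^ 2)) ^ 2 * r ^ (2 * l + 2) -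
          (deriv (psi T l) (r ^ 2) * r ^ 2 + l * psi T l (r ^ 2)) ^ 2 * r ^ (2 * l - 2)) =
      -(π * l * ((ρ ^ 2)⁻¹) ^ l) := by
  set P := psi T l with hP
  have hd : ∀ r : ℝ, HasDerivAt (fun r => -(π * l) * (P (r ^ 2) ^ 2 * r ^ (2 * l)))
      (2 * π * r * ((deriv P (r ^ 2)) ^ 2 * r ^ (2 * l + 2) -
          (deriv P (r ^ 2) * r ^ 2 + l * P (r ^ 2)) ^ 2 * r ^ (2 * l - 2))) r := by
    intro r
    have h1 : HasDerivAt (fun r => P (r ^ 2)) (deriv P (r ^ 2) * (2 * r)) r := by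
      have := (((contDiff_psi hT l).differentiable (by norm_num)) (r ^ 2)).hasDerivAt.comp r
        (hasDerivAt_pow 2 r)
      exact this.congr_deriv (by push_cast; ring)
    have h2 := ((h1.pow 2).mul (hasDerivAt_pow (2 * l) r)).const_mul (-(π * l))
    refine h2.congr_deriv ?_
    obtain ⟨k, rfl⟩ : ∃ k, l = k + 1 := ⟨l - 1, by omega⟩
    simp only [show 2 * (k + 1) - 2 = 2 * k by omega, show 2 * (k + 1) - 1 = 2 * k + 1 by omega,
      Pi.pow_apply]
    push_cast
    ring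
  have hcont : Continuous fun r : ℝ => 2 * π * r * ((deriv P (r ^ 2)) ^ 2 * r ^ (2 * l + 2) -
          (deriv P (r ^ 2) * r ^ 2 + l * P (r ^ 2)) ^ 2 * r ^ (2 * l - 2)) := by
    have hc1 : Continuous (deriv P) := (contDiff_psi hT l).continuous_deriv (by norm_num)
    have hc2 : Continuous P := (contDiff_psi hT l).continuous
    fun_prop
  rw [← intervalIntegral.integral_of_le hρ,
    intervalIntegral.integral_eq_sub_of_hasDerivAt (fun r _ => hd r) (hcont.intervalIntegrable _ _),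
    hP, psi_eq hT hTρ, zero_pow (by omega : 2 ≠ 0)]
  rw [zero_pow (by omega : 2 * l ≠ 0)]
  rcases eq_or_lt_of_le hρ with h | h
  · subst h; simp at hTρ; linarith
  rw [show ρ ^ (2 * l) = (ρ ^ 2) ^ l by rw [pow_mul], inv_pow, inv_pow]
  field_simp
  ring

/-- Expansion of the square of a polynomial. -/
lemma norm_sq_poly (n : ℕ) (c : ℕ → ℂ) (z : ℂ) :
    ‖∑ p ∈ Finset.range n, c p * z ^ p‖ ^ 2 =
      (∑ p ∈ Finset.range n, ‖c p‖ ^ 2 * (‖z‖ ^ 2) ^ p) +
      2 * (∑ p ∈ Finset.range n, ∑ q ∈ Finset.range p,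
        (conj (c q) * c p) * ((‖z‖ : ℂ) ^ 2) ^ q * z ^ (p - q)).re := by
  induction n with
  | zero => simp
  | succ n ih =>
    rw [Finset.sum_range_succ, Finset.sum_range_succ, Finset.sum_range_succ, Complex.sq_norm,
      Complex.normSq_add, ← Complex.sq_norm, ← Complex.sq_norm, ih, norm_mul, norm_pow, mul_pow,
      ← pow_mul ‖z‖ n 2, mul_comm n 2, pow_mul, Complex.add_re]
    have : ((∑ p ∈ Finset.range n, c p * z ^ p) * conj (c n * z ^ n)).re =
        (∑ q ∈ Finset.range n, conj (c q) * c n * ((‖z‖ : ℂ) ^ 2) ^ q * z ^ (n - q)).re := by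
      rw [← Complex.conj_re, map_mul, Complex.conj_conj, map_sum, Finset.sum_mul]
      refine congrArg Complex.re (Finset.sum_congr rfl fun q hq => ?_)
      rw [map_mul, map_pow, ← Complex.mul_conj', mul_pow,
        ← pow_mul_pow_sub z (Finset.mem_range.1 hq).le]
      ring
    rw [this]
    ring

/-- The Jacobian integral of the interior modification. -/
lemma integral_jac_model {T ρ R : ℝ} (hT : 0 < T) (hρ : 1 ≤ ρ) (hTρ : T ≤ ρ ^ 2) (hρR : ρ < R)
    (x₁ x₂ : ℂ) {A : ℂ → ℂ} (hA : DifferentiableOn ℂ A (ball 0 R)) (c : ℕ → ℂ) {B : ℂ → ℂ}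
    (hB : DifferentiableOn ℂ B (ball 0 R))
    (hexp : ∀ z ∈ ball (0 : ℂ) R,
      deriv A z = (∑ p ∈ Finset.range 6, c p * z ^ p) + z ^ 6 * B z) :
    π * ((∑ p ∈ Finset.range 6, ‖c p‖ ^ 2 * ρ ^ (2 * p + 2) / (p + 1)) -
        (‖x₁‖ ^ 2 * (ρ ^ 2)⁻¹ + 2 * ‖x₂‖ ^ 2 * ((ρ ^ 2)⁻¹) ^ 2)) ≤
      ∫ z in closedBall (0 : ℂ) ρ, jac (model T x₁ x₂ A) z := by
  have hdA : DifferentiableOn ℂ (deriv A) (ball 0 R) := hA.deriv isOpen_ball
  set d1 : ℝ → ℂ := fun t => x₁ * ((deriv (psi T 1) t : ℝ) : ℂ) with hd1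
  set d2 : ℝ → ℂ := fun t => x₂ * ((deriv (psi T 2) t : ℝ) : ℂ) with hd2
  set e1 : ℝ → ℂ := fun t => x₁ * ((deriv (psi T 1) t * t + psi T 1 t : ℝ) : ℂ) with he1
  set e2 : ℝ → ℂ := fun t => x₂ * ((deriv (psi T 2) t * t + 2 * psi T 2 t : ℝ) : ℂ) with he2
  have hc1 : ∀ l, Continuous (deriv (psi T l)) :=
    fun l => (contDiff_psi hT l).continuous_deriv (by norm_num)
  have hc2 : ∀ l, Continuous (psi T l) := fun l => (contDiff_psi hT l).continuous
  have hd1c : Continuous d1 := by simp only [hd1]; fun_prop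
  have hd2c : Continuous d2 := by simp only [hd2]; fun_prop
  have he1c : Continuous e1 := by simp only [he1]; fun_prop
  have he2c : Continuous e2 := by simp only [he2]; fun_prop
  set main : ℝ → ℝ := fun t => (∑ p ∈ Finset.range 6, ‖c p‖ ^ 2 * t ^ p) +
    (‖d1 t‖ ^ 2 * t ^ 2 + ‖d2 t‖ ^ 2 * t ^ 3 - ‖e1 t‖ ^ 2 - ‖e2 t‖ ^ 2 * t) with hmain
  have hmainc : Continuous main := by simp only [hmain]; fun_prop
  set cross : ℂ → ℂ := fun z =>
    (∑ p ∈ Finset.range 6, ∑ q ∈ Finset.range p,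
        ((conj (c q) * c p) * ((‖z‖ ^ 2 : ℝ) : ℂ) ^ q) * z ^ (p - q)) +
    (∑ p ∈ Finset.range 6, (conj (c p) * ((‖z‖ ^ 2 : ℝ) : ℂ) ^ p) * (z ^ (6 - p) * B z)) +
    conj (d1 (‖z‖ ^ 2)) * (z ^ 2 * deriv A z) + conj (d2 (‖z‖ ^ 2)) * (z ^ 3 * deriv A z) +
    (d1 (‖z‖ ^ 2) * conj (d2 (‖z‖ ^ 2)) * ((‖z‖ ^ 2 : ℝ) : ℂ) ^ 2) * z -
    (e1 (‖z‖ ^ 2) * conj (e2 (‖z‖ ^ 2))) * z with hcross
  have hpoint : ∀ z ∈ ball (0 : ℂ) R, main (‖z‖ ^ 2) + 2 * (cross z).re ≤ jac (model T x₁ x₂ A) z := by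
    intro z hz
    rw [jac_model hT x₁ x₂ hA hz]
    set t := ‖z‖ ^ 2 with ht
    have hzz : (t : ℂ) = z * conj z := by rw [Complex.mul_conj', ht]; push_cast; rfl
    have hA2 : ‖deriv A z‖ ^ 2 ≥ (∑ p ∈ Finset.range 6, ‖c p‖ ^ 2 * t ^ p) +
        2 * ((∑ p ∈ Finset.range 6, ∑ q ∈ Finset.range p,
          ((conj (c q) * c p) * (t : ℂ) ^ q) * z ^ (p - q)) +
        (∑ p ∈ Finset.range 6, (conj (c p) * (t : ℂ) ^ p) * (z ^ (6 - p) * B z))).re := by
      rw [hexp z hz, Complex.sq_norm, Complex.normSq_add, ← Complex.sq_norm, ← Complex.sq_norm,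
        norm_sq_poly]
      have : ((∑ p ∈ Finset.range 6, c p * z ^ p) * conj (z ^ 6 * B z)).re =
          (∑ p ∈ Finset.range 6, (conj (c p) * (t : ℂ) ^ p) * (z ^ (6 - p) * B z)).re := by
        rw [← Complex.conj_re, map_mul, Complex.conj_conj, map_sum, Finset.sum_mul]
        refine congrArg Complex.re (Finset.sum_congr rfl fun q hq => ?_)
        rw [map_mul, map_pow, hzz, mul_pow, ← pow_mul_pow_sub z (Finset.mem_range.1 hq).le]
        ring
      rw [this, Complex.add_re]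
      simp only [ht, Complex.ofReal_pow]
      nlinarith [sq_nonneg ‖z ^ 6 * B z‖]
    have hn1 : ‖d1 t * conj z ^ 2‖ ^ 2 = ‖d1 t‖ ^ 2 * t ^ 2 := by
      rw [norm_mul, norm_pow, Complex.norm_conj, ht]; ring
    have hn2 : ‖d2 t * conj z ^ 3‖ ^ 2 = ‖d2 t‖ ^ 2 * t ^ 3 := by
      rw [norm_mul, norm_pow, Complex.norm_conj, ht]; ring
    have hn3 : ‖e2 t * conj z‖ ^ 2 = ‖e2 t‖ ^ 2 * t := by
      rw [norm_mul, Complex.norm_conj, ht]; ring
    have k1 : (deriv A z * conj (d1 t * conj z ^ 2)).re = (conj (d1 t) * (z ^ 2 * deriv A z)).re := by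
      rw [map_mul, map_pow, Complex.conj_conj]; ring_nf
    have k2 : (deriv A z * conj (d2 t * conj z ^ 3)).re = (conj (d2 t) * (z ^ 3 * deriv A z)).re := by
      rw [map_mul, map_pow, Complex.conj_conj]; ring_nf
    have k3 : (d1 t * conj z ^ 2 * conj (d2 t * conj z ^ 3)).re =
        ((d1 t * conj (d2 t) * (t : ℂ) ^ 2) * z).re := by
      rw [map_mul, map_pow, Complex.conj_conj, hzz]; ring_nf
    have k4 : (e1 t * conj (e2 t * conj z)).re = ((e1 t * conj (e2 t)) * z).re := by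
      rw [map_mul, Complex.conj_conj]; ring_nf
    have hlhs : ∀ a b d : ℂ, ‖a + b + d‖ ^ 2 = ‖a‖ ^ 2 + ‖b‖ ^ 2 + ‖d‖ ^ 2 +
        2 * ((a * conj b).re + (a * conj d).re + (b * conj d).re) := by
      intro a b d
      simp only [Complex.sq_norm, Complex.normSq_add, add_mul, Complex.add_re]
      ring
    have hneg : ‖e1 t + e2 t * conj z‖ ^ 2 = ‖e1 t‖ ^ 2 + ‖e2 t‖ ^ 2 * t +
        2 * (e1 t * conj (e2 t * conj z)).re := by
      rw [← hn3]; simp only [Complex.sq_norm, Complex.normSq_add]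
    show main t + 2 * (cross z).re ≤
      ‖deriv A z + d1 t * conj z ^ 2 + d2 t * conj z ^ 3‖ ^ 2 - ‖e1 t + e2 t * conj z‖ ^ 2
    rw [hlhs, hneg, hn1, hn2, k1, k2, k3, k4]
    simp only [hmain, hcross, Complex.add_re, Complex.sub_re, ← ht] at hA2 ⊢
    linarith
  have hcrossc : ContinuousOn cross (closedBall 0 ρ) := by
    have hsub := closedBall_subset_ball (x := (0 : ℂ)) hρR
    have h1 : ContinuousOn B (closedBall 0 ρ) := hB.continuousOn.mono hsub
    have h2 : ContinuousOn (deriv A) (closedBall 0 ρ) := hdA.continuousOn.mono hsub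
    simp only [hcross]
    fun_prop
  have hjacc : ContinuousOn (fun z => jac (model T x₁ x₂ A) z) (closedBall 0 ρ) := by
    intro z hz
    refine ContinuousAt.continuousWithinAt ?_
    have hm := (contDiffAt_model hT x₁ x₂ hA (closedBall_subset_ball hρR hz)).fderiv_right
      (m := 1) (by norm_num)
    have hca := hm.continuousAt
    unfold jac
    fun_prop
  have hcz : ∫ z in closedBall (0 : ℂ) ρ, cross z = 0 := by
    have hzero : ∀ (φ : ℝ → ℂ) (H : ℂ → ℂ), Continuous φ → DifferentiableOn ℂ H (ball 0 R) →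
        H 0 = 0 → IntegrableOn (fun z => φ (‖z‖ ^ 2) * H z) (closedBall 0 ρ) ∧
          ∫ z in closedBall (0 : ℂ) ρ, φ (‖z‖ ^ 2) * H z = 0 := fun φ H hφ hH hH0 =>
      ⟨((hφ.comp (continuous_norm.pow 2)).continuousOn.mul
          (hH.continuousOn.mono (closedBall_subset_ball hρR))).integrableOn_compact
          (isCompact_closedBall _ _), setIntegral_ball_radial_mul hφ hρR hH hH0⟩
    have t1 := fun p q : ℕ => hzero (fun t : ℝ => (conj (c q) * c p) * ((t : ℂ)) ^ q)
      (fun z => z ^ (p - q))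
    have t2 := fun p : ℕ => hzero (fun t : ℝ => conj (c p) * (t : ℂ) ^ p) (fun z => z ^ (6 - p) * B z)
    have t3 := hzero (fun t => conj (d1 t)) (fun z => z ^ 2 * deriv A z) (by fun_prop)
      ((differentiableOn_pow 2).mul hdA) (by simp)
    have t4 := hzero (fun t => conj (d2 t)) (fun z => z ^ 3 * deriv A z) (by fun_prop)
      ((differentiableOn_pow 3).mul hdA) (by simp)
    have t5 := hzero (fun t => d1 t * conj (d2 t) * (t : ℂ) ^ 2) (fun z => z) (by fun_prop)
      differentiableOn_id rfl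
    have t6 := hzero (fun t => e1 t * conj (e2 t)) (fun z => z) (by fun_prop) differentiableOn_id rfl
    have u1 : ∀ p, ∀ q ∈ Finset.range p, IntegrableOn
        (fun z : ℂ => ((conj (c q) * c p) * ((‖z‖ ^ 2 : ℝ) : ℂ) ^ q) * z ^ (p - q)) (closedBall 0 ρ) ∧
        ∫ z in closedBall (0 : ℂ) ρ,
          ((conj (c q) * c p) * ((‖z‖ ^ 2 : ℝ) : ℂ) ^ q) * z ^ (p - q) = 0 := fun p q hq =>
      t1 p q (by fun_prop) (differentiableOn_pow _)
        (zero_pow (by have := Finset.mem_range.1 hq; omega))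
    have u2 : ∀ p ∈ Finset.range 6, IntegrableOn
        (fun z : ℂ => (conj (c p) * ((‖z‖ ^ 2 : ℝ) : ℂ) ^ p) * (z ^ (6 - p) * B z)) (closedBall 0 ρ) ∧
        ∫ z in closedBall (0 : ℂ) ρ,
          (conj (c p) * ((‖z‖ ^ 2 : ℝ) : ℂ) ^ p) * (z ^ (6 - p) * B z) = 0 := fun p hp =>
      t2 p (by fun_prop) ((differentiableOn_pow _).mul hB)
        (by rw [zero_pow (by have := Finset.mem_range.1 hp; omega), zero_mul])
    have i1 : Integrable (fun z : ℂ => ∑ p ∈ Finset.range 6, ∑ q ∈ Finset.range p,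
        ((conj (c q) * c p) * ((‖z‖ ^ 2 : ℝ) : ℂ) ^ q) * z ^ (p - q))
        (volume.restrict (closedBall 0 ρ)) :=
      integrable_finsetSum _ fun p _ => integrable_finsetSum _ fun q hq => (u1 p q hq).1
    have i2 : Integrable (fun z : ℂ => ∑ p ∈ Finset.range 6,
        (conj (c p) * ((‖z‖ ^ 2 : ℝ) : ℂ) ^ p) * (z ^ (6 - p) * B z))
        (volume.restrict (closedBall 0 ρ)) :=
      integrable_finsetSum _ fun p hp => (u2 p hp).1
    simp only [hcross]
    rw [integral_sub ((((i1.fun_add i2).fun_add t3.1).fun_add t4.1).fun_add t5.1) t6.1,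
      integral_add (((i1.fun_add i2).fun_add t3.1).fun_add t4.1) t5.1,
      integral_add ((i1.fun_add i2).fun_add t3.1) t4.1, integral_add (i1.fun_add i2) t3.1,
      integral_add i1 i2, t3.2, t4.2, t5.2, t6.2,
      integral_finsetSum _ (fun p _ => integrable_finsetSum _ fun q hq => (u1 p q hq).1),
      integral_finsetSum _ (fun p hp => (u2 p hp).1)]
    rw [Finset.sum_eq_zero, Finset.sum_eq_zero]
    · simp
    · exact fun p hp => (u2 p hp).2
    · intro p _
      rw [integral_finsetSum _ (fun q hq => (u1 p q hq).1)]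
      exact Finset.sum_eq_zero fun q hq => (u1 p q hq).2
  have hmi : IntegrableOn (fun z : ℂ => main (‖z‖ ^ 2)) (closedBall 0 ρ) :=
    (hmainc.comp (continuous_norm.pow 2)).continuousOn.integrableOn_compact (isCompact_closedBall _ _)
  have hci : IntegrableOn cross (closedBall 0 ρ) :=
    hcrossc.integrableOn_compact (isCompact_closedBall _ _)
  have hrei : ∫ z in closedBall (0 : ℂ) ρ, (cross z).re = 0 := by
    have h := integral_re (𝕜 := ℂ) hci
    simp only [RCLike.re_to_complex] at h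
    rw [h, hcz, Complex.zero_re]
  have hle : ∫ z in closedBall (0 : ℂ) ρ, (main (‖z‖ ^ 2) + 2 * (cross z).re) ≤
      ∫ z in closedBall (0 : ℂ) ρ, jac (model T x₁ x₂ A) z :=
    setIntegral_mono_on (hmi.fun_add (hci.re.const_mul 2))
      (hjacc.integrableOn_compact (isCompact_closedBall _ _)) measurableSet_closedBall
      (fun z hz => hpoint z (closedBall_subset_ball hρR hz))
  refine le_trans (le_of_eq ?_) hle
  have hri : Integrable (fun z => (cross z).re) (volume.restrict (closedBall 0 ρ)) := hci.re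
  rw [integral_add hmi (hri.const_mul 2), integral_const_mul, hrei, mul_zero, add_zero]
  have hrad : ∫ z in closedBall (0 : ℂ) ρ, main (‖z‖ ^ 2) =
      ∫ r in Ioc 0 ρ, 2 * π * r * main (r ^ 2) := by
    have h := setIntegral_ball_radial (φ := fun t => (main t : ℂ)) (by fun_prop) (ρ := ρ)
    simp only [← Complex.ofReal_mul] at h
    rw [integral_complex_ofReal, integral_complex_ofReal] at h
    exact_mod_cast h
  rw [hrad]
  have hIoc : ∀ g : ℝ → ℝ, Continuous g → IntegrableOn g (Ioc 0 ρ) := fun g hg => hg.integrableOn_Ioc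
  have hsplit : ∀ r : ℝ, 2 * π * r * main (r ^ 2) =
      (∑ p ∈ Finset.range 6, 2 * π * (‖c p‖ ^ 2 * r ^ (2 * p + 1))) +
      (‖x₁‖ ^ 2 * (2 * π * r * ((deriv (psi T 1) (r ^ 2)) ^ 2 * r ^ (2 * 1 + 2) -
          (deriv (psi T 1) (r ^ 2) * r ^ 2 + (1 : ℕ) * psi T 1 (r ^ 2)) ^ 2 * r ^ (2 * 1 - 2))) +
       ‖x₂‖ ^ 2 * (2 * π * r * ((deriv (psi T 2) (r ^ 2)) ^ 2 * r ^ (2 * 2 + 2) -
          (deriv (psi T 2) (r ^ 2) * r ^ 2 + (2 : ℕ) * psi T 2 (r ^ 2)) ^ 2 * r ^ (2 * 2 - 2)))) := by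
    intro r
    simp only [hmain, hd1, hd2, he1, he2, norm_mul, Complex.norm_real, Real.norm_eq_abs, mul_pow,
      sq_abs, mul_add, Finset.mul_sum]
    congr 1
    · exact Finset.sum_congr rfl fun p _ => by ring
    · push_cast; ring
  simp only [hsplit]
  rw [integral_add (integrable_finsetSum _ fun p _ => hIoc _ (by fun_prop))
      ((hIoc _ (by fun_prop)).fun_add (hIoc _ (by fun_prop))),
    integral_add (hIoc _ (by fun_prop)) (hIoc _ (by fun_prop)), integral_const_mul,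
    integral_const_mul, radial_psi hT (by linarith) hTρ 1 le_rfl,
    radial_psi hT (by linarith) hTρ 2 (by norm_num),
    integral_finsetSum _ (fun p _ => hIoc _ (by fun_prop))]
  have hpow : ∀ p : ℕ, ∫ r in Ioc 0 ρ, 2 * π * (‖c p‖ ^ 2 * r ^ (2 * p + 1)) =
      π * (‖c p‖ ^ 2 * ρ ^ (2 * p + 2) / (p + 1)) := by
    intro p
    rw [← intervalIntegral.integral_of_le (by linarith : (0 : ℝ) ≤ ρ), intervalIntegral.integral_const_mul,
      intervalIntegral.integral_const_mul, integral_pow]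
    have : ((2 * p + 1 : ℕ) : ℝ) + 1 = 2 * (p + 1) := by push_cast; ring
    rw [zero_pow (by omega), sub_zero, this]
    field_simp
  simp only [hpow, ← Finset.mul_sum]
  push_cast
  ring

lemma jac_congr {G H : ℂ → ℂ} {z : ℂ} (h : G =ᶠ[𝓝 z] H) : jac G z = jac H z := by
  unfold jac; rw [h.fderiv_eq]

lemma jac_comp {G f : ℂ → ℂ} {z : ℂ} (hG : DifferentiableAt ℝ G (f z))
    (hf : DifferentiableAt ℂ f z) : jac (G ∘ f) z = jac G (f z) * ‖deriv f z‖ ^ 2 := by
  have h := hG.hasFDerivAt.comp z (hf.hasDerivAt.hasFDerivAt.restrictScalars ℝ)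
  set L := fderiv ℝ G (f z) with hL
  set u := deriv f z with hu
  have hlin : ∀ w : ℂ, L w = (w.re : ℂ) * L 1 + (w.im : ℂ) * L I := by
    intro w
    conv_lhs => rw [show w = w.re • (1 : ℂ) + w.im • I by simp [Complex.real_smul]]
    rw [map_add, map_smul, map_smul]
    simp [Complex.real_smul]
  unfold jac
  rw [h.fderiv]
  simp only [ContinuousLinearMap.comp_apply, ContinuousLinearMap.coe_restrictScalars',
    ContinuousLinearMap.toSpanSingleton_apply, smul_eq_mul, one_mul]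
  rw [hlin u, hlin (I * u), Complex.I_mul_re, Complex.I_mul_im, Complex.sq_norm,
    Complex.normSq_apply]
  simp [Complex.mul_im, Complex.mul_re]
  ring

lemma abs_det_mul (u : ℂ) :
    |((ContinuousLinearMap.toSpanSingleton ℂ u).restrictScalars ℝ).det| = ‖u‖ ^ 2 := by
  have h : (((ContinuousLinearMap.toSpanSingleton ℂ u).restrictScalars ℝ : ℂ →L[ℝ] ℂ) : ℂ →ₗ[ℝ] ℂ) =
      Algebra.lmul ℝ ℂ u := by
    ext <;> simp [mul_comm]
  rw [ContinuousLinearMap.det, h, ← Algebra.norm_apply, Algebra.norm_complex_apply,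
    Complex.sq_norm, abs_of_nonneg (Complex.normSq_nonneg _)]

/-- Cut off at infinity. -/
def infCut (L : ℝ) (w : ℂ) : ℂ := ((Real.smoothTransition (2 - ‖w‖ ^ 2 / L ^ 2) : ℝ) : ℂ)

lemma contDiff_infCut (L : ℝ) : ContDiff ℝ 2 (infCut L) := by
  unfold infCut
  exact Complex.ofRealCLM.contDiff.comp ((Real.smoothTransition.contDiff.of_le le_rfl).comp
    (contDiff_const.sub ((contDiff_norm_sq ℝ).div_const _)))

/-- Lower bound for the Jacobian of a cut off holomorphic function. -/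
lemma jac_infCut_mul {L : ℝ} {P : ℂ → ℂ} {w : ℂ} (hP : DifferentiableAt ℂ P w) :
    -(deriv Real.smoothTransition (2 - ‖w‖ ^ 2 / L ^ 2) * ‖w‖ / L ^ 2 * ‖P w‖) ^ 2 ≤
      jac (fun w => infCut L w * P w) w := by
  set τ := deriv Real.smoothTransition (2 - ‖w‖ ^ 2 / L ^ 2) with hτ
  set χ := Real.smoothTransition (2 - ‖w‖ ^ 2 / L ^ 2) with hχ
  have hcut : HasFDerivAt (fun v : ℂ => (Real.smoothTransition (2 - ‖v‖ ^ 2 / L ^ 2) : ℝ))
      (τ • (-((L ^ 2)⁻¹ • ((2 : ℕ) • innerSL ℝ w)))) w := by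
    have h1 : HasFDerivAt (fun v : ℂ => 2 - ‖v‖ ^ 2 / L ^ 2) (-((L ^ 2)⁻¹ • ((2 : ℕ) • innerSL ℝ w))) w := by
      have h0 : HasFDerivAt (fun v : ℂ => ‖v‖ ^ 2) ((2 : ℕ) • innerSL ℝ w) w :=
        (hasStrictFDerivAt_norm_sq w).hasFDerivAt
      refine ((h0.const_smul ((L ^ 2)⁻¹)).const_sub 2).congr_of_eventuallyEq
        (Eventually.of_forall fun v => ?_)
      simp [div_eq_inv_mul]
    exact (((Real.smoothTransition.contDiff (n := 1)).differentiable (by norm_num)) _).hasDerivAt.comp_hasFDerivAt w h1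
  have h := (Complex.ofRealCLM.hasFDerivAt.comp w hcut).fun_mul
    (hP.hasDerivAt.hasFDerivAt.restrictScalars ℝ)
  have hd : fderiv ℝ (fun v => infCut L v * P v) w = _ := h.fderiv
  rw [jac_eq_of_fderiv (p := (χ : ℂ) * deriv P w - (τ : ℂ) / (L : ℂ) ^ 2 * conj w * P w)
    (q := -((τ : ℂ) / (L : ℂ) ^ 2 * w * P w))]
  · rw [norm_neg, norm_mul, norm_mul, norm_div, norm_pow, Complex.norm_real, Complex.norm_real,
      Real.norm_eq_abs, Real.norm_eq_abs, sq_abs]
    have e : |τ| / L ^ 2 * ‖w‖ * ‖P w‖ = |τ * ‖w‖ / L ^ 2 * ‖P w‖| := by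
      rw [abs_mul, abs_div, abs_mul, abs_norm, abs_norm, abs_of_nonneg (sq_nonneg L)]; ring
    rw [e, sq_abs]
    nlinarith [sq_nonneg ‖(χ : ℂ) * deriv P w - (τ : ℂ) / (L : ℂ) ^ 2 * conj w * P w‖]
  · rw [hd]
    simp [Complex.inner]
    have h2 : (2 : ℂ) * (w.re : ℂ) = w + conj w := by rw [Complex.add_conj]; push_cast; ring
    simp only [← hχ]
    linear_combination (-(τ : ℂ) / (L : ℂ) ^ 2 * P w) * h2
  · rw [hd]
    simp [Complex.inner]
    have h2 : (2 : ℂ) * (w.im : ℂ) = -I * (w - conj w) := by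
      rw [Complex.sub_conj]; push_cast
      linear_combination (2 * (w.im : ℂ)) * Complex.I_sq
    simp only [← hχ]
    linear_combination (-(τ : ℂ) / (L : ℂ) ^ 2 * P w) * h2

/-- The area theorem for `P ∘ f = x₁/z + x₂/z² + A`, `P w = p₁/(w - f 0) + p₂/(w - f 0)²`. -/
theorem area {f A B : ℂ → ℂ} {R : ℝ} (hR : 1 < R) (hf : DifferentiableOn ℂ f (ball 0 R))
    (hinj : InjOn f (ball 0 R)) {p₁ p₂ x₁ x₂ : ℂ} (hA : DifferentiableOn ℂ A (ball 0 R))
    (hB : DifferentiableOn ℂ B (ball 0 R)) (c : ℕ → ℂ)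
    (hexp : ∀ z ∈ ball (0 : ℂ) R,
      deriv A z = (∑ p ∈ Finset.range 6, c p * z ^ p) + z ^ 6 * B z)
    (heq : ∀ z ∈ ball (0 : ℂ) R, z ≠ 0 →
      p₁ / (f z - f 0) + p₂ / (f z - f 0) ^ 2 = x₁ / z + x₂ / z ^ 2 + A z) :
    ∑ p ∈ Finset.range 6, ‖c p‖ ^ 2 / (p + 1) ≤ ‖x₁‖ ^ 2 + 2 * ‖x₂‖ ^ 2 := by
  classical
  set R₁ := (1 + R) / 2 with hR₁
  set R₂ := (R₁ + R) / 2 with hR₂
  have h1 : 1 < R₁ := by rw [hR₁]; linarith
  have h12 : R₁ < R₂ := by rw [hR₂, hR₁]; linarith
  have h2R : R₂ < R := by rw [hR₂, hR₁]; linarith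
  set T := R₁ ^ 2 with hT
  have hTpos : (0 : ℝ) < T := by rw [hT]; positivity
  set P : ℂ → ℂ := fun w => p₁ / (w - f 0) + p₂ / (w - f 0) ^ 2 with hPdef
  set Ψ := model T x₁ x₂ A with hΨ
  set U := f '' ball (0 : ℂ) R₂ with hU
  set K := f '' closedBall (0 : ℂ) R₁ with hK
  have hsub2 : closedBall (0 : ℂ) R₂ ⊆ ball 0 R := closedBall_subset_ball h2R
  have hsubU : ball (0 : ℂ) R₂ ⊆ ball 0 R := ball_subset_closedBall.trans hsub2
  have hne : ∀ z ∈ ball (0 : ℂ) R, deriv f z ≠ 0 := fun z hz =>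
    deriv_ne_zero_of_injOn isOpen_ball hf hinj hz
  have hstrict : ∀ z ∈ ball (0 : ℂ) R, HasStrictDerivAt f (deriv f z) z := fun z hz =>
    (hf.analyticAt (isOpen_ball.mem_nhds hz)).hasStrictDerivAt
  have hUopen : IsOpen U := by
    refine isOpen_iff_mem_nhds.2 ?_
    rintro _ ⟨z, hz, rfl⟩
    rw [← (hstrict z (hsubU hz)).map_nhds_eq (hne z (hsubU hz))]
    exact image_mem_map (isOpen_ball.mem_nhds hz)
  have hKU : K ⊆ U := image_mono (closedBall_subset_ball h12)
  have hKc : IsCompact K := (isCompact_closedBall _ _).image_of_continuousOn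
    (hf.continuousOn.mono ((closedBall_subset_ball h12).trans hsubU))
  have hU2c : IsCompact (f '' closedBall (0 : ℂ) R₂) := (isCompact_closedBall _ _).image_of_continuousOn
    (hf.continuousOn.mono hsub2)
  obtain ⟨M, hM⟩ := hU2c.isBounded.subset_closedBall (0 : ℂ)
  have h0R : (0 : ℂ) ∈ ball (0 : ℂ) R := mem_ball_self (by linarith)
  have h0K : f 0 ∈ K := ⟨0, mem_closedBall_self (by linarith), rfl⟩
  set g := Function.invFunOn f (ball (0 : ℂ) R₂) with hg
  have hgf : ∀ z ∈ ball (0 : ℂ) R₂, g (f z) = z := fun z hz =>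
    (hinj.mono hsubU).leftInvOn_invFunOn hz
  have hPdiff : ∀ w ∉ K, DifferentiableAt ℂ P w := fun w hw => by
    have h0 : w - f 0 ≠ 0 := sub_ne_zero.2 fun h => hw (h ▸ h0K)
    simp only [hPdef]
    fun_prop (disch := simp [h0])
  -- one bound for large arguments
  obtain ⟨Kτ, hKτ⟩ : ∃ Kτ : ℝ, ∀ t : ℝ, |deriv Real.smoothTransition t| ≤ Kτ := by
    have hc : Continuous (deriv Real.smoothTransition) :=
      (Real.smoothTransition.contDiff (n := 1)).continuous_deriv le_rfl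
    obtain ⟨b, hb⟩ := isCompact_Icc.exists_bound_of_continuousOn (s := Icc (0 : ℝ) 1) hc.continuousOn
    refine ⟨max b 0, fun t => ?_⟩
    by_cases ht : t ∈ Icc (0 : ℝ) 1
    · exact ((Real.norm_eq_abs _).symm.le.trans (hb t ht)).trans (le_max_left _ _)
    · rw [mem_Icc, not_and_or, not_le, not_le] at ht
      have : deriv Real.smoothTransition t = 0 := by
        rcases ht with ht | ht
        · refine HasDerivAt.deriv ((hasDerivAt_const t (0 : ℝ)).congr_of_eventuallyEq ?_)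
          filter_upwards [Iio_mem_nhds ht] with s hs
          exact Real.smoothTransition.zero_of_nonpos (le_of_lt hs)
        · refine HasDerivAt.deriv ((hasDerivAt_const t (1 : ℝ)).congr_of_eventuallyEq ?_)
          filter_upwards [Ioi_mem_nhds ht] with s hs
          exact Real.smoothTransition.one_of_one_le (le_of_lt hs)
      rw [this, abs_zero]
      exact le_max_right _ _
  have key : ∀ L : ℝ, M + 1 < L → 2 * ‖f 0‖ + 2 < L →
      (∫ z in ball (0 : ℂ) R₂, jac Ψ z) ≤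
        (4 * Kτ * (‖p₁‖ + 2 * ‖p₂‖)) ^ 2 / L ^ 4 * (π * (2 * L) ^ 2) := by
    intro L hLM hL0
    have hLpos : 0 < L := by linarith [norm_nonneg (f 0)]
    set G : ℂ → ℂ := fun w => if w ∈ U then Ψ (g w) else infCut L w * P w with hG
    have hcut1 : ∀ w ∈ U, infCut L w = 1 := by
      rintro _ ⟨z, hz, rfl⟩
      have hb := mem_closedBall_zero_iff.1 (hM ⟨z, ball_subset_closedBall hz, rfl⟩)
      have h2 : ‖f z‖ ^ 2 / L ^ 2 ≤ 1 := by
        rw [div_le_one (by positivity)]; gcongr; linarith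
      rw [infCut, Real.smoothTransition.one_of_one_le (by linarith), Complex.ofReal_one]
    have houter : ∀ w ∉ K, G w = infCut L w * P w := by
      intro w hw
      by_cases hwU : w ∈ U
      · simp only [hG, if_pos hwU]
        obtain ⟨z, hz, rfl⟩ := hwU
        rw [hgf z hz, hcut1 _ ⟨z, hz, rfl⟩, one_mul, hPdef]
        have hzK : R₁ < ‖z‖ := by
          by_contra h
          exact hw ⟨z, mem_closedBall_zero_iff.2 (not_lt.1 h), rfl⟩
        have hz0 : z ≠ 0 := by intro h; rw [h, norm_zero] at hzK; linarith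
        show Ψ z = _
        rw [hΨ, model_eq hTpos x₁ x₂ A (by rw [hT]; gcongr), ← heq z (hsubU hz) hz0]
      · simp only [hG, if_neg hwU]
    have hnearK : ∀ w ∉ K, G =ᶠ[𝓝 w] fun v => infCut L v * P v := fun w hw => by
      filter_upwards [hKc.isClosed.isOpen_compl.mem_nhds hw] with v hv using houter v hv
    have hGfd : ∀ w ∉ K, ContDiffAt ℝ 2 G w := by
      intro w hw
      have hPo : DifferentiableOn ℂ P Kᶜ := fun v hv => (hPdiff v hv).differentiableWithinAt
      have hP2 : ContDiffAt ℝ 2 P w :=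
        ((hPo.contDiffOn hKc.isClosed.isOpen_compl).restrict_scalars ℝ).contDiffAt
          (hKc.isClosed.isOpen_compl.mem_nhds hw)
      exact (((contDiff_infCut L).contDiffAt).mul hP2).congr_of_eventuallyEq (hnearK w hw)
    have hinner : ∀ z ∈ ball (0 : ℂ) R₂, ContDiffAt ℝ 2 G (f z) := by
      intro z hz
      have hgd : DifferentiableOn ℂ g U := by
        rintro _ ⟨z', hz', rfl⟩
        have hs := hstrict z' (hsubU hz')
        have h0 := hne z' (hsubU hz')
        have hli := (hs.to_localInverse h0).hasDerivAt.differentiableAt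
        refine (hli.congr_of_eventuallyEq ?_).differentiableWithinAt
        have hev : ∀ᶠ v in 𝓝 (f z'), hs.localInverse f _ z' h0 v ∈ ball (0 : ℂ) R₂ := by
          refine hli.continuousAt.preimage_mem_nhds (isOpen_ball.mem_nhds ?_)
          rw [(hs.eventually_left_inverse h0).self_of_nhds]
          exact hz'
        filter_upwards [hev, hs.eventually_right_inverse h0] with v hv1 hv2
        conv_lhs => rw [← hv2]
        exact hgf _ hv1
      have hg2 : ContDiffAt ℝ 2 g (f z) :=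
        ((hgd.contDiffOn hUopen).restrict_scalars ℝ).contDiffAt (hUopen.mem_nhds ⟨z, hz, rfl⟩)
      have hΨ2 : ContDiffAt ℝ 2 Ψ (g (f z)) := by
        rw [hgf z hz]
        exact contDiffAt_model hTpos x₁ x₂ hA (hsubU hz)
      refine (hΨ2.comp (f z) hg2).congr_of_eventuallyEq ?_
      filter_upwards [hUopen.mem_nhds ⟨z, hz, rfl⟩] with v hv
      simp only [hG, if_pos hv, Function.comp_apply]
    have hGc : ContDiff ℝ 2 G := by
      rw [contDiff_iff_contDiffAt]
      intro w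
      by_cases hw : w ∈ K
      · obtain ⟨z, hz, rfl⟩ := hKU hw
        exact hinner z hz
      · exact hGfd w hw
    have hcs : HasCompactSupport G := by
      refine HasCompactSupport.intro (isCompact_closedBall 0 (max (2 * L) M)) fun w hw => ?_
      rw [mem_closedBall_zero_iff, not_le, max_lt_iff] at hw
      have hwK : w ∉ K := fun h => by
        have := mem_closedBall_zero_iff.1 (hM (image_mono (closedBall_subset_closedBall h12.le) h))
        linarith
      rw [houter w hwK, infCut, Real.smoothTransition.zero_of_nonpos, Complex.ofReal_zero, zero_mul]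
      rw [sub_nonpos, le_div_iff₀ (by positivity)]
      nlinarith
    obtain ⟨hJint, hJ0⟩ := integral_jac_eq_zero hGc hcs
    have hUm : MeasurableSet U := hUopen.measurableSet
    have hsplit := integral_add_compl hUm hJint
    rw [hJ0] at hsplit
    have hjin : ∫ w in U, jac G w = ∫ z in ball (0 : ℂ) R₂, jac Ψ z := by
      rw [hU, integral_image_eq_integral_abs_det_fderiv_smul volume measurableSet_ball
        (fun z hz => (((hf.differentiableAt (isOpen_ball.mem_nhds (hsubU hz))).hasDerivAt.hasFDerivAt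
          ).restrictScalars ℝ).hasFDerivWithinAt) (hinj.mono hsubU)]
      refine setIntegral_congr_fun measurableSet_ball fun z hz => ?_
      have hcomp : G ∘ f =ᶠ[𝓝 z] Ψ := by
        filter_upwards [isOpen_ball.mem_nhds hz] with v hv
        simp only [Function.comp_apply, hG, if_pos (show f v ∈ U from ⟨v, hv, rfl⟩), hgf v hv]
      rw [abs_det_mul, smul_eq_mul, mul_comm, ← jac_comp ((hinner z hz).differentiableAt (by norm_num))
        (hf.differentiableAt (isOpen_ball.mem_nhds (hsubU hz)))]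
      exact jac_congr hcomp
    set bd := (4 * Kτ * (‖p₁‖ + 2 * ‖p₂‖)) ^ 2 / L ^ 4 with hbd
    have hbd0 : 0 ≤ bd := by rw [hbd]; positivity
    have hout : ∀ w ∈ Uᶜ, -(closedBall (0 : ℂ) (2 * L)).indicator (fun _ => bd) w ≤ jac G w := by
      intro w hw
      have hwK : w ∉ K := fun h => hw (hKU h)
      rw [jac_congr (hnearK w hwK)]
      refine le_trans ?_ (jac_infCut_mul (hPdiff w hwK))
      rw [neg_le_neg_iff]
      by_cases hz : deriv Real.smoothTransition (2 - ‖w‖ ^ 2 / L ^ 2) = 0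
      · rw [hz]; simp only [zero_mul, zero_div, ne_eq, OfNat.ofNat_ne_zero, not_false_eq_true,
          zero_pow]
        exact indicator_nonneg (fun _ _ => hbd0) w
      have hs : 0 ≤ 2 - ‖w‖ ^ 2 / L ^ 2 ∧ 2 - ‖w‖ ^ 2 / L ^ 2 ≤ 1 := by
        constructor
        · by_contra h
          rw [not_le] at h
          refine hz (HasDerivAt.deriv ((hasDerivAt_const _ (0 : ℝ)).congr_of_eventuallyEq ?_))
          filter_upwards [Iio_mem_nhds h] with s hs
          exact Real.smoothTransition.zero_of_nonpos (le_of_lt hs)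
        · by_contra h
          rw [not_le] at h
          refine hz (HasDerivAt.deriv ((hasDerivAt_const _ (1 : ℝ)).congr_of_eventuallyEq ?_))
          filter_upwards [Ioi_mem_nhds h] with s hs
          exact Real.smoothTransition.one_of_one_le (le_of_lt hs)
      have hwL : L ≤ ‖w‖ := by
        have := hs.2
        rw [sub_le_comm] at this
        have h' : L ^ 2 ≤ ‖w‖ ^ 2 := by
          rw [← div_self (by positivity : L ^ 2 ≠ 0)] at this
          have := (le_div_iff₀ (by positivity : (0 : ℝ) < L ^ 2)).1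
            (show (1 : ℝ) ≤ ‖w‖ ^ 2 / L ^ 2 by linarith [hs.2])
          linarith
        exact le_of_sq_le_sq h' (norm_nonneg _)
      have hw2 : ‖w‖ ≤ 2 * L := by
        have h' : ‖w‖ ^ 2 ≤ 2 * L ^ 2 := (div_le_iff₀ (by positivity)).1 (by linarith [hs.1])
        exact le_of_sq_le_sq (by nlinarith) (by linarith)
      rw [indicator_of_mem (mem_closedBall_zero_iff.2 hw2)]
      have hd : L / 2 ≤ ‖w - f 0‖ := by linarith [norm_sub_norm_le w (f 0)]
      have hd1 : 1 ≤ ‖w - f 0‖ := by linarith [norm_nonneg (f 0)]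
      have hP : ‖P w‖ ≤ (‖p₁‖ + 2 * ‖p₂‖) * (2 / L) := by
        rw [hPdef]
        refine (norm_add_le _ _).trans ?_
        rw [norm_div, norm_div, norm_pow, add_mul]
        refine add_le_add ?_ ?_
        · rw [div_le_iff₀ (by linarith)]
          calc ‖p₁‖ = ‖p₁‖ * (2 / L) * (L / 2) := by field_simp
            _ ≤ _ := by gcongr
        · calc ‖p₂‖ / ‖w - f 0‖ ^ 2 ≤ ‖p₂‖ / ‖w - f 0‖ :=
              div_le_div_of_nonneg_left (norm_nonneg _) (by linarith) (le_self_pow₀ hd1 (by norm_num))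
            _ ≤ 2 * ‖p₂‖ * (2 / L) := by
              rw [div_le_iff₀ (by linarith)]
              calc ‖p₂‖ ≤ 2 * ‖p₂‖ * (2 / L) * (L / 2) := by
                    field_simp; linarith [norm_nonneg p₂]
                _ ≤ _ := by gcongr
      calc (deriv Real.smoothTransition (2 - ‖w‖ ^ 2 / L ^ 2) * ‖w‖ / L ^ 2 * ‖P w‖) ^ 2
          = (|deriv Real.smoothTransition (2 - ‖w‖ ^ 2 / L ^ 2)| * ‖w‖ / L ^ 2 * ‖P w‖) ^ 2 := by
            simp only [mul_pow, div_pow, sq_abs]
        _ ≤ (Kτ * (2 * L) / L ^ 2 * ((‖p₁‖ + 2 * ‖p₂‖) * (2 / L))) ^ 2 := by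
            have := (abs_nonneg _).trans (hKτ 0)
            gcongr
            exact hKτ _
        _ = bd := by rw [hbd]; field_simp; ring
    have hindi : Integrable ((closedBall (0 : ℂ) (2 * L)).indicator fun _ => bd) :=
      IntegrableOn.integrable_indicator (integrableOn_const measure_closedBall_lt_top.ne)
        measurableSet_closedBall
    have hlow : -(bd * (π * (2 * L) ^ 2)) ≤ ∫ w in Uᶜ, jac G w := by
      have hm := setIntegral_mono_on hindi.neg.integrableOn hJint.integrableOn hUm.compl hout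
      refine le_trans ?_ hm
      simp only [Pi.neg_apply]
      rw [integral_neg, neg_le_neg_iff]
      refine (setIntegral_le_integral hindi (Eventually.of_forall
        (indicator_nonneg fun _ _ => hbd0))).trans (le_of_eq ?_)
      rw [integral_indicator measurableSet_closedBall, setIntegral_const, smul_eq_mul,
        measureReal_def, Complex.volume_closedBall]
      simp only [ENNReal.toReal_mul, ENNReal.toReal_pow, ENNReal.coe_toReal, NNReal.coe_real_pi,
        ENNReal.toReal_ofReal (by linarith : (0 : ℝ) ≤ 2 * L)]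
      ring
    rw [← hjin]
    linarith
  have hzero : ∫ z in ball (0 : ℂ) R₂, jac Ψ z ≤ 0 := by
    refine ge_of_tendsto (f := fun L : ℝ => (4 * Kτ * (‖p₁‖ + 2 * ‖p₂‖)) ^ 2 / L ^ 4 * (π * (2 * L) ^ 2))
      (x := atTop) ?_ ?_
    · have : (fun L : ℝ => (4 * Kτ * (‖p₁‖ + 2 * ‖p₂‖)) ^ 2 / L ^ 4 * (π * (2 * L) ^ 2)) =ᶠ[atTop]
          fun L => (4 * Kτ * (‖p₁‖ + 2 * ‖p₂‖)) ^ 2 * (4 * π) * (L ^ 2)⁻¹ := by
        filter_upwards [eventually_gt_atTop 0] with L hL
        field_simp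
        ring
      refine Tendsto.congr' this.symm ?_
      have h := (tendsto_inv_atTop_zero.comp (tendsto_pow_atTop (α := ℝ) (n := 2) two_ne_zero)).const_mul
        ((4 * Kτ * (‖p₁‖ + 2 * ‖p₂‖)) ^ 2 * (4 * π))
      rw [mul_zero] at h
      exact h
    · filter_upwards [eventually_gt_atTop (M + 1), eventually_gt_atTop (2 * ‖f 0‖ + 2)] with L a b
      exact key L a b
  have hball : ∫ z in closedBall (0 : ℂ) R₂, jac Ψ z = ∫ z in ball (0 : ℂ) R₂, jac Ψ z := by
    refine setIntegral_congr_set (ae_eq_of_subset_of_measure_ge ball_subset_closedBall ?_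
      measurableSet_ball.nullMeasurableSet measure_closedBall_lt_top.ne).symm
    rw [Complex.volume_closedBall, Complex.volume_ball]
  have hint := integral_jac_model hTpos (h1.le.trans h12.le) (by rw [hT]; gcongr) h2R x₁ x₂ hA c hB hexp
  rw [← hΨ, hball] at hint
  have hfin : (∑ p ∈ Finset.range 6, ‖c p‖ ^ 2 * R₂ ^ (2 * p + 2) / ((p : ℝ) + 1)) -
      (‖x₁‖ ^ 2 * (R₂ ^ 2)⁻¹ + 2 * ‖x₂‖ ^ 2 * ((R₂ ^ 2)⁻¹) ^ 2) ≤ 0 := by
    by_contra h
    linarith [mul_pos Real.pi_pos (not_le.1 h)]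
  have e1 : ∑ p ∈ Finset.range 6, ‖c p‖ ^ 2 / ((p : ℝ) + 1) ≤
      ∑ p ∈ Finset.range 6, ‖c p‖ ^ 2 * R₂ ^ (2 * p + 2) / ((p : ℝ) + 1) := by
    refine Finset.sum_le_sum fun p _ => ?_
    gcongr
    exact le_mul_of_one_le_right (by positivity) (one_le_pow₀ (h1.le.trans h12.le))
  have hi : (R₂ ^ 2)⁻¹ ≤ 1 := inv_le_one_of_one_le₀ (one_le_pow₀ (h1.le.trans h12.le))
  have hi0 : (0 : ℝ) ≤ (R₂ ^ 2)⁻¹ := by positivity
  nlinarith [mul_le_mul_of_nonneg_left hi (sq_nonneg ‖x₁‖),
    mul_le_mul_of_nonneg_left (pow_le_one₀ (n := 2) hi0 hi) (sq_nonneg ‖x₂‖)]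

end

end Vale.Agent.P142.Area
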