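import Mathlib

/-!
Algebra of the Taylor coefficients of `f'(ζ) / (f (ζ + v) - f ζ)` in terms of the Schwarzian jets.
-/

set_option linter.unusedSimpArgs false

namespace Vale.Agent.P142.Jets

open Finset

noncomputable section

/-- Coefficient of `v ^ p` of `f'(ζ) / (f (ζ + v) - f ζ) + L / 2`, where `s j` is the `j`-th
derivative of half the Schwarzian derivative. -/
def gam (s : ℕ → ℂ) : ℕ → ℂ
  | 1 =>
    (-1 / 3 : ℂ) * s 0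
  | 2 =>
    (-1 / 12 : ℂ) * s 1
  | 3 =>
    (-1 / 45 : ℂ) * s 0 ^ 2 +
    (-1 / 60 : ℂ) * s 2
  | 4 =>
    (-1 / 60 : ℂ) * s 0 * s 1 +
    (-1 / 360 : ℂ) * s 3
  | 5 =>
    (-2 / 945 : ℂ) * s 0 ^ 3 +
    (-1 / 252 : ℂ) * s 0 * s 2 +
    (-17 / 5040 : ℂ) * s 1 ^ 2 +
    (-1 / 2520 : ℂ) * s 4
  | 6 =>
    (-1 / 378 : ℂ) * s 0 ^ 2 * s 1 +
    (-11 / 15120 : ℂ) * s 0 * s 3 +
    (-17 / 10080 : ℂ) * s 1 * s 2 +
    (-1 / 20160 : ℂ) * s 5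
  | 7 =>
    (-1 / 4725 : ℂ) * s 0 ^ 4 +
    (-19 / 28350 : ℂ) * s 0 ^ 2 * s 2 +
    (-13 / 11340 : ℂ) * s 0 * s 1 ^ 2 +
    (-1 / 9072 : ℂ) * s 0 * s 4 +
    (-29 / 90720 : ℂ) * s 1 * s 3 +
    (-11 / 50400 : ℂ) * s 2 ^ 2 +
    (-1 / 181440 : ℂ) * s 6
  | _ => 0

/-- Expansion coefficients of the reciprocal. -/
def rec1 (η : ℂ) (s : ℕ → ℂ) : ℕ → ℂ
  | 0 => 1
  | 1 => η
  | k + 2 => gam s (k + 1)

lemma gam_scale (κ : ℂ) (s : ℕ → ℂ) {p : ℕ} (h1 : 1 ≤ p) (h7 : p ≤ 7) :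
    gam (fun j => κ ^ (j + 2) * s j) p = κ ^ (p + 1) * gam s p := by
  interval_cases p <;> simp only [gam] <;> ring


lemma reciprocal (L M s : ℕ → ℂ) (η : ℂ) (hη : L 0 = -2 * η)
    (hL : ∀ i < 7, L (i + 1) = 2 * s i + (∑ k ∈ range (i + 1), (i.choose k : ℂ) * L k * L (i - k)) / 2)
    (hM0 : M 0 = 1)
    (hM : ∀ m < 8, M (m + 1) = ∑ i ∈ range (m + 1), (m.choose i : ℂ) * L i * M (m - i))
    {n : ℕ} (h1 : 1 ≤ n) (h8 : n ≤ 8) :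
    ∑ i ∈ range (n + 1), rec1 η s i * (M (n - i) / ((n - i + 1).factorial : ℂ)) = 0 := by
  have l1 := hL 0 (by norm_num)
  have l2 := hL 1 (by norm_num)
  have l3 := hL 2 (by norm_num)
  have l4 := hL 3 (by norm_num)
  have l5 := hL 4 (by norm_num)
  have l6 := hL 5 (by norm_num)
  have l7 := hL 6 (by norm_num)
  have m1 := hM 0 (by norm_num)
  have m2 := hM 1 (by norm_num)
  have m3 := hM 2 (by norm_num)
  have m4 := hM 3 (by norm_num)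
  have m5 := hM 4 (by norm_num)
  have m6 := hM 5 (by norm_num)
  have m7 := hM 6 (by norm_num)
  have m8 := hM 7 (by norm_num)
  simp [Finset.sum_range_succ, Nat.choose, hη, hM0] at l1 l2 l3 l4 l5 l6 l7 m1 m2 m3 m4 m5 m6 m7 m8
  interval_cases n <;>
    simp [Finset.sum_range_succ, rec1, gam, Nat.factorial, hM0, m8, m7, m6, m5, m4, m3, m2, m1,
      l7, l6, l5, l4, l3, l2, l1, hη] <;> ring

lemma conv_split (g b : ℕ → ℂ) :
    ∃ K : ℕ → ℂ, ∀ v : ℂ, (∑ i ∈ range 9, g i * v ^ i) * (∑ m ∈ range 9, b m * v ^ m) =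
      (∑ n ∈ range 9, (∑ i ∈ range (n + 1), g i * b (n - i)) * v ^ n) +
        v ^ 9 * ∑ k ∈ range 8, K k * v ^ k := by
  refine ⟨fun k => ∑ i ∈ range (8 - k), g (k + 1 + i) * b (8 - i), fun v => ?_⟩
  simp only [Finset.sum_range_succ, Finset.sum_range_zero]
  ring

end

end Vale.Agent.P142.Jets
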