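import Mathlib
import Vale.Agent.P142.JetsAlgebra
import Vale.Agent.P142.Area

/-!
The jets of a univalent function on the unit disc and the expansion of the difference quotient.
-/

namespace Vale.Agent.P142.Jets

open Complex Metric Set Filter Topology Finset ComplexConjugate

noncomputable section

/-- Logarithmic derivative of `f'`. -/
def Lf (f : ℂ → ℂ) (z : ℂ) : ℂ := deriv (deriv f) z / deriv f z

/-- Half the Schwarzian derivative. -/
def sig (f : ℂ → ℂ) (z : ℂ) : ℂ := deriv (Lf f) z / 2 - Lf f z ^ 2 / 4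

/-- `-f'' / (2 f')`. -/
def eta0 (f : ℂ → ℂ) (z : ℂ) : ℂ := -(Lf f z) / 2

/-- Half of `ρ² - |ζ|²`. -/
def xval (ρ : ℝ) (ζ : ℂ) : ℝ := (ρ ^ 2 - ‖ζ‖ ^ 2) / 2

/-- Scale at which the Grunsky matrix of the Koebe transform is polynomial in the jets. -/
def kap (ρ : ℝ) (ζ : ℂ) : ℂ := -(xval ρ ζ : ℂ) / conj ζ

/-- The scaled jets. -/
def tau (f : ℂ → ℂ) (ρ : ℝ) (ζ : ℂ) : ℕ → ℂ
  | 0 => eta0 f ζ * kap ρ ζ
  | j + 1 => kap ρ ζ ^ (j + 2) * iteratedDeriv j (sig f) ζ

section

variable {f : ℂ → ℂ}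

lemma analyticAt_of (hf : DifferentiableOn ℂ f (ball 0 1)) {z : ℂ} (hz : z ∈ ball (0 : ℂ) 1) :
    AnalyticAt ℂ f z :=
  hf.analyticAt (isOpen_ball.mem_nhds hz)

lemma analyticAt_Lf (hf : DifferentiableOn ℂ f (ball 0 1)) (hinj : InjOn f (ball 0 1)) {z : ℂ}
    (hz : z ∈ ball (0 : ℂ) 1) : AnalyticAt ℂ (Lf f) z :=
  ((analyticAt_of hf hz).deriv.deriv).div (analyticAt_of hf hz).deriv
    (Area.deriv_ne_zero_of_injOn isOpen_ball hf hinj hz)

lemma analyticAt_sig (hf : DifferentiableOn ℂ f (ball 0 1)) (hinj : InjOn f (ball 0 1)) {z : ℂ}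
    (hz : z ∈ ball (0 : ℂ) 1) : AnalyticAt ℂ (sig f) z := by
  have h := analyticAt_Lf hf hinj hz
  exact (h.deriv.div_const).sub ((h.pow 2).div_const)

lemma jets_L (hf : DifferentiableOn ℂ f (ball 0 1)) (hinj : InjOn f (ball 0 1)) {z : ℂ}
    (hz : z ∈ ball (0 : ℂ) 1) (i : ℕ) :
    iteratedDeriv (i + 1) (Lf f) z = 2 * iteratedDeriv i (sig f) z +
      (∑ k ∈ Finset.range (i + 1), (i.choose k : ℂ) * iteratedDeriv k (Lf f) z *
        iteratedDeriv (i - k) (Lf f) z) / 2 := by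
  have h := analyticAt_Lf hf hinj hz
  have hs := analyticAt_sig hf hinj hz
  have he : deriv (Lf f) = fun w => 2 * sig f w + (1 / 2) * (Lf f w * Lf f w) := by
    funext w
    simp only [sig]
    ring
  have h1 : ContDiffAt ℂ i (fun w => 2 * sig f w) z := (analyticAt_const.mul hs).contDiffAt
  have h2 : ContDiffAt ℂ i (fun w => (1 / 2 : ℂ) * (Lf f w * Lf f w)) z :=
    (analyticAt_const.mul (h.mul h)).contDiffAt
  rw [iteratedDeriv_succ', he, iteratedDeriv_fun_add h1 h2, iteratedDeriv_const_mul_field,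
    iteratedDeriv_const_mul_field, iteratedDeriv_fun_mul h.contDiffAt h.contDiffAt]
  ring

lemma jets_M (hf : DifferentiableOn ℂ f (ball 0 1)) (hinj : InjOn f (ball 0 1)) {z : ℂ}
    (hz : z ∈ ball (0 : ℂ) 1) (m : ℕ) :
    iteratedDeriv (m + 2) f z / deriv f z =
      ∑ i ∈ Finset.range (m + 1), (m.choose i : ℂ) * iteratedDeriv i (Lf f) z *
        (iteratedDeriv (m - i + 1) f z / deriv f z) := by
  have hev : deriv (deriv f) =ᶠ[𝓝 z] fun w => Lf f w * deriv f w := by
    filter_upwards [isOpen_ball.mem_nhds hz] with w hw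
    rw [Lf, div_mul_cancel₀ _ (Area.deriv_ne_zero_of_injOn isOpen_ball hf hinj hw)]
  rw [iteratedDeriv_succ', iteratedDeriv_succ', hev.iteratedDeriv_eq,
    iteratedDeriv_fun_mul (analyticAt_Lf hf hinj hz).contDiffAt
      (analyticAt_of hf hz).deriv.contDiffAt, Finset.sum_div]
  refine Finset.sum_congr rfl fun i _ => ?_
  rw [iteratedDeriv_succ']
  ring

/-- Laurent expansion of `f' ζ / (f (ζ + v) - f ζ)` at `v = 0`. -/
lemma expansion (hf : DifferentiableOn ℂ f (ball 0 1)) (hinj : InjOn f (ball 0 1)) {ζ : ℂ}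
    (hζ : ζ ∈ ball (0 : ℂ) 1) :
    ∃ E : ℂ → ℂ, AnalyticAt ℂ E 0 ∧ ∀ᶠ v in 𝓝 (0 : ℂ), v ≠ 0 →
      deriv f ζ / (f (ζ + v) - f ζ) - eta0 f ζ =
        1 / v + (∑ k ∈ Finset.range 7, gam (fun j => iteratedDeriv j (sig f) ζ) (k + 1) * v ^ (k + 1)) +
          v ^ 8 * E v := by
  have hd := Area.deriv_ne_zero_of_injOn isOpen_ball hf hinj hζ
  have hsh : AnalyticAt ℂ (fun v => f (ζ + v)) 0 := by
    refine AnalyticAt.comp' (g := f) ?_ (analyticAt_const.add analyticAt_id)
    simpa using analyticAt_of hf hζ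
  obtain ⟨R, hR, hT⟩ := hsh.exists_eventuallyEq_sum_add_pow_mul 10
  set s := fun j => iteratedDeriv j (sig f) ζ with hs
  set b : ℕ → ℂ := fun m => iteratedDeriv (m + 1) f ζ / deriv f ζ / ((m + 1).factorial : ℂ) with hb
  set g : ℕ → ℂ := rec1 (eta0 f ζ) s with hg
  have hrec : ∀ n, 1 ≤ n → n ≤ 8 → ∑ i ∈ Finset.range (n + 1), g i * b (n - i) = 0 := by
    intro n h1 h8
    refine reciprocal (fun i => iteratedDeriv i (Lf f) ζ)
      (fun m => iteratedDeriv (m + 1) f ζ / deriv f ζ) s (eta0 f ζ) ?_ ?_ ?_ ?_ h1 h8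
    · simp only [iteratedDeriv_zero, eta0]; ring
    · exact fun i _ => jets_L hf hinj hζ i
    · simp [hd]
    · intro m _
      exact jets_M hf hinj hζ m
  obtain ⟨K, hK⟩ := conv_split g b
  set u : ℂ → ℂ := fun v => (∑ m ∈ Finset.range 9, b m * v ^ m) + v ^ 9 * (R v / deriv f ζ) with hu
  have hua : AnalyticAt ℂ u 0 := by
    refine (Finset.analyticAt_fun_sum _ fun m _ => ?_).add ((analyticAt_id.pow 9).mul hR.div_const)
    exact analyticAt_const.mul (analyticAt_id.pow m)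
  have hu0 : u 0 = 1 := by
    simp [hu, Finset.sum_range_succ, hb, hd]
  refine ⟨fun v => -((∑ k ∈ Finset.range 8, K k * v ^ k) +
      (∑ i ∈ Finset.range 9, g i * v ^ i) * (R v / deriv f ζ)) / u v, ?_, ?_⟩
  · refine (AnalyticAt.neg (AnalyticAt.add ?_ (AnalyticAt.mul ?_ hR.div_const))).div hua (by simp [hu0])
    · exact Finset.analyticAt_fun_sum _ fun k _ => analyticAt_const.mul (analyticAt_id.pow k)
    · exact Finset.analyticAt_fun_sum _ fun k _ => analyticAt_const.mul (analyticAt_id.pow k)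
  filter_upwards [hT, hua.continuousAt.eventually_ne (by simp [hu0] : u 0 ≠ 0)] with v hv hun hv0
  have hdv : f (ζ + v) - f ζ = deriv f ζ * v * u v := by
    rw [hv]
    simp [iteratedDeriv_comp_const_add, Finset.sum_range_succ, hu, hb, Nat.factorial]
    field_simp
    ring
  have hgu : (∑ i ∈ Finset.range 9, g i * v ^ i) * u v = 1 + v ^ 9 *
      ((∑ k ∈ Finset.range 8, K k * v ^ k) +
        (∑ i ∈ Finset.range 9, g i * v ^ i) * (R v / deriv f ζ)) := by
    have hz : ∑ n ∈ Finset.range 8,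
        (∑ i ∈ Finset.range (n + 1 + 1), g i * b (n + 1 - i)) * v ^ (n + 1) = 0 := by
      refine Finset.sum_eq_zero fun n hn => ?_
      rw [hrec (n + 1) (by omega) (by have := Finset.mem_range.1 hn; omega), zero_mul]
    have h0 : g 0 * b 0 = 1 := by simp [hg, rec1, hb, hd]
    simp only [hu]
    rw [mul_add, hK, Finset.sum_range_succ' _ 8, hz]
    simp only [Finset.sum_range_one, Nat.sub_self, pow_zero, mul_one, zero_add, h0]
    ring
  have hsum : ∑ i ∈ Finset.range 9, g i * v ^ i =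
      1 + eta0 f ζ * v + v * ∑ k ∈ Finset.range 7, gam s (k + 1) * v ^ (k + 1) := by
    rw [Finset.sum_range_succ', Finset.sum_range_succ', Finset.mul_sum]
    simp only [hg, rec1]
    have : ∀ k : ℕ, gam s (k + 1) * v ^ (k + 1 + 1) = v * (gam s (k + 1) * v ^ (k + 1)) :=
      fun k => by ring
    simp only [this]
    ring
  rw [hdv, mul_assoc (deriv f ζ) v, div_mul_eq_div_div, div_self hd]
  simp only [hsum] at hgu ⊢
  generalize u v = uv at hun hgu ⊢
  field_simp at hgu ⊢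
  linear_combination -hgu

end

end

end Vale.Agent.P142.Jets
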