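import Mathlib
import Vale.Agent.P142.Jets

/-!
The vector of jets at a point and its derivation rule.
-/

namespace Vale.Agent.P142.Moments

open Jets

noncomputable section

/-- The jets at a point. -/
def jet (f : ℂ → ℂ) (z : ℂ) : ℕ → ℂ
  | 0 => eta0 f z
  | j + 1 => iteratedDeriv j (sig f) z

/-- The derivation in coordinates. -/
def dval (x : ℕ → ℂ) : ℕ → ℂ
  | 0 => -x 1 - x 0 ^ 2
  | k + 1 => x (k + 2)

end

end Vale.Agent.P142.Moments
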