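import Mathlib
import Vale.Agent.P142.Moments

/-!
General lemmas on integrals over the disc and on circular means.
-/

namespace Vale.Agent.P142.Main

open Complex Metric Set Filter Topology MeasureTheory ComplexConjugate
open scoped Real ENNReal

noncomputable section

/-- Exhaustion of the unit disc by smaller discs. -/
lemma lintegral_le_of_forall {g : ℂ → ℝ} {C : ℝ}
    (hnn : ∀ z ∈ ball (0 : ℂ) 1, 0 ≤ g z)
    (hg : ∀ ρ : ℝ, 1 / 2 ≤ ρ → ρ < 1 → IntegrableOn g (ball 0 ρ) ∧ ∫ z in ball (0 : ℂ) ρ, g z ≤ C) :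
    ∫⁻ z in ball (0 : ℂ) 1, ENNReal.ofReal (g z) ≤ ENNReal.ofReal C := by
  set r : ℕ → ℝ := fun n => 1 - 1 / ((n : ℝ) + 2) with hr
  have hr1 : ∀ n, r n < 1 := fun n => by simp only [hr]; linarith [show (0 : ℝ) < 1 / ((n : ℝ) + 2) by positivity]
  have hr2 : ∀ n, 1 / 2 ≤ r n := fun n => by
    simp only [hr]
    linarith [one_div_le_one_div_of_le (by norm_num : (0 : ℝ) < 2)
      (by linarith [(n.cast_nonneg : (0 : ℝ) ≤ n)] : (2 : ℝ) ≤ (n : ℝ) + 2)]
  have hmono : Monotone fun n => ball (0 : ℂ) (r n) := fun a b hab => by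
    refine ball_subset_ball ?_
    simp only [hr]
    gcongr
  have hU : ball (0 : ℂ) 1 = ⋃ n, ball (0 : ℂ) (r n) := by
    refine Subset.antisymm (fun z hz => ?_) (iUnion_subset fun n => ball_subset_ball (hr1 n).le)
    rw [mem_ball_zero_iff] at hz
    obtain ⟨n, hn⟩ := exists_nat_gt (1 / (1 - ‖z‖))
    refine mem_iUnion.2 ⟨n, mem_ball_zero_iff.2 ?_⟩
    simp only [hr]
    rw [div_lt_iff₀ (by linarith)] at hn
    have : 1 / ((n : ℝ) + 2) < 1 - ‖z‖ := by
      rw [div_lt_iff₀ (by positivity)]; nlinarith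
    linarith
  rw [hU, setLIntegral_iUnion_of_directed _ hmono.directed_le]
  refine iSup_le fun n => ?_
  obtain ⟨hi, hle⟩ := hg (r n) (hr2 n) (hr1 n)
  rw [← ofReal_integral_eq_lintegral_ofReal hi]
  · exact ENNReal.ofReal_le_ofReal hle
  · filter_upwards [ae_restrict_mem measurableSet_ball] with z hz
    exact hnn z (ball_subset_ball (hr1 n).le hz)

variable {f : ℂ → ℂ}

lemma continuousOn_inv_deriv (hf : DifferentiableOn ℂ f (ball 0 1)) (hinj : InjOn f (ball 0 1)) :
    ContinuousOn (fun z => (deriv f z)⁻¹) (ball 0 1) :=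
  ((hf.analyticOnNhd isOpen_ball).deriv.continuousOn).inv₀ fun _ hz =>
    Area.deriv_ne_zero_of_injOn isOpen_ball hf hinj hz

lemma norm_rpow_neg_two (x : ℂ) : ‖x‖ ^ (-2 : ℝ) = ‖x⁻¹‖ ^ 2 := by
  rw [Real.rpow_neg (norm_nonneg _), norm_inv, inv_pow, ← Real.rpow_natCast, Nat.cast_ofNat]

/-- Integrability of a negative power of the distance to the circle. -/
lemma lintegral_dist_rpow {q : ℝ} (hq0 : 0 ≤ q) (hq : q < 1) :
    ∫⁻ z in ball (0 : ℂ) 1, ENNReal.ofReal ((1 - ‖z‖ ^ 2) ^ (-q)) < ⊤ := by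
  refine lt_of_le_of_lt (lintegral_le_of_forall (C := π / (1 - q)) (fun z hz => ?_) ?_)
    ENNReal.ofReal_lt_top
  · rw [mem_ball_zero_iff] at hz
    exact Real.rpow_nonneg (by nlinarith [norm_nonneg z]) _
  intro ρ hρ2 hρ1
  have hρlt : ρ ^ 2 < 1 := by nlinarith
  set φ : ℝ → ℝ := fun t => (max (1 - t) (1 - ρ ^ 2)) ^ (-q) with hφ
  have hφc : Continuous φ := by
    simp only [hφ]
    refine Continuous.rpow_const (by fun_prop) fun t => Or.inl ?_
    linarith [le_max_right (1 - t) (1 - ρ ^ 2)]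
  have heq : ∀ z ∈ closedBall (0 : ℂ) ρ, (1 - ‖z‖ ^ 2) ^ (-q) = φ (‖z‖ ^ 2) := by
    intro z hz
    rw [mem_closedBall_zero_iff] at hz
    simp only [hφ]
    rw [max_eq_left (by nlinarith [norm_nonneg z])]
  have hi : IntegrableOn (fun z : ℂ => (1 - ‖z‖ ^ 2) ^ (-q)) (closedBall 0 ρ) :=
    ((hφc.comp (continuous_norm.pow 2)).continuousOn.integrableOn_compact
      (isCompact_closedBall _ _)).congr_fun (fun z hz => (heq z hz).symm) measurableSet_closedBall
  refine ⟨hi.mono_set ball_subset_closedBall, ?_⟩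
  refine le_trans (setIntegral_mono_set hi ?_ (HasSubset.Subset.eventuallyLE ball_subset_closedBall)) ?_
  · filter_upwards [ae_restrict_mem measurableSet_closedBall] with z hz
    rw [mem_closedBall_zero_iff] at hz
    exact Real.rpow_nonneg (by nlinarith [norm_nonneg z]) _
  rw [setIntegral_congr_fun measurableSet_closedBall heq]
  have h := Area.setIntegral_ball_radial (φ := fun t => (φ t : ℂ))
    (Complex.continuous_ofReal.comp hφc) (ρ := ρ)
  simp only [← Complex.ofReal_mul, integral_complex_ofReal] at h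
  rw [Complex.ofReal_inj] at h
  rw [h, ← intervalIntegral.integral_of_le (by linarith)]
  have hd : ∀ r ∈ Icc 0 ρ, HasDerivAt (fun r => -(π / (1 - q)) * (1 - r ^ 2) ^ (1 - q))
      (2 * π * r * φ (r ^ 2)) r := by
    intro r hr
    have hpos : 0 < 1 - r ^ 2 := by nlinarith [hr.1, hr.2]
    have h1 : HasDerivAt (fun r : ℝ => 1 - r ^ 2) (-(2 * r)) r := by
      simpa using (hasDerivAt_pow 2 r).const_sub 1
    refine ((h1.rpow_const (Or.inl hpos.ne')).const_mul _).congr_deriv ?_
    simp only [hφ]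
    rw [max_eq_left (by nlinarith [hr.1, hr.2]), show 1 - q - 1 = -q by ring]
    have : 1 - q ≠ 0 := by linarith
    field_simp
  have hc : Continuous fun r => 2 * π * r * φ (r ^ 2) := by fun_prop
  rw [intervalIntegral.integral_eq_sub_of_hasDerivAt
    (fun r hr => hd r (by rwa [uIcc_of_le (by linarith)] at hr)) (hc.intervalIntegrable _ _)]
  have hp : 0 ≤ π / (1 - q) := div_nonneg Real.pi_pos.le (by linarith)
  have : 0 ≤ π / (1 - q) * (1 - ρ ^ 2) ^ (1 - q) :=
    mul_nonneg hp (Real.rpow_nonneg (by linarith) _)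
  simp
  linarith

/-- Circular means of `|g|²` increase with the radius, for `g` holomorphic in the unit disc. -/
lemma circle_mean_mono {g : ℂ → ℂ} (hg : DifferentiableOn ℂ g (ball 0 1)) {r s : ℝ}
    (hr : 0 ≤ r) (hrs : r ≤ s) (hs : s < 1) :
    ∫ θ in (-π)..π, ‖g (circleMap 0 r θ)‖ ^ 2 ≤ ∫ θ in (-π)..π, ‖g (circleMap 0 s θ)‖ ^ 2 := by
  rcases eq_or_lt_of_le hrs with h | h
  · rw [h]
  have hs0 : 0 < s := lt_of_le_of_lt hr h
  set u : ℝ → ℂ := fun θ => Complex.exp (θ * I) with hu
  have hun : ∀ θ, ‖u θ‖ = 1 := fun θ => Complex.norm_exp_ofReal_mul_I θ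
  have hcm : ∀ (t : ℝ) θ, circleMap 0 t θ = (t : ℂ) * u θ := fun t θ => by
    simp [circleMap, hu]
  have huc : Continuous u := by simp only [hu]; fun_prop
  have hgc : ∀ w : ℂ, ‖w‖ < 1 → Continuous fun θ => g (w * u θ) := by
    intro w hw
    refine hg.continuousOn.comp_continuous (continuous_const.mul huc) fun θ => ?_
    rw [mem_ball_zero_iff, norm_mul, hun, mul_one]; exact hw
  set Φ : ℂ → ℂ := fun w => ∫ θ in (-π)..π, g (w * u θ) * conj (g ((r : ℂ) * u θ)) with hΦ
  have hrn : ‖(r : ℂ)‖ = r := by simp [abs_of_nonneg hr]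
  have hgr : Continuous fun θ => conj (g ((r : ℂ) * u θ)) :=
    Complex.continuous_conj.comp (hgc r (by rw [hrn]; linarith))
  have hdiff : ∀ w₀ : ℂ, ‖w₀‖ < 1 → DifferentiableAt ℂ Φ w₀ := by
    intro w₀ hw₀
    set R := (1 + ‖w₀‖) / 2 with hR
    have hR1 : R < 1 := by rw [hR]; linarith
    have hdg : ContinuousOn (deriv g) (closedBall 0 R) :=
      ((hg.analyticOnNhd isOpen_ball).deriv.continuousOn).mono (closedBall_subset_ball hR1)
    obtain ⟨M, hM⟩ := (isCompact_closedBall (0 : ℂ) R).exists_bound_of_continuousOn hdg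
    have hmem : ∀ w ∈ ball w₀ (R - ‖w₀‖), ∀ θ, w * u θ ∈ closedBall (0 : ℂ) R := by
      intro w hw θ
      rw [mem_ball, dist_eq_norm] at hw
      rw [mem_closedBall_zero_iff, norm_mul, hun, mul_one]
      linarith [norm_le_norm_add_norm_sub' w w₀, norm_sub_rev w w₀]
    have h := intervalIntegral.hasDerivAt_integral_of_dominated_loc_of_deriv_le
      (F := fun w θ => g (w * u θ) * conj (g ((r : ℂ) * u θ)))
      (F' := fun w θ => deriv g (w * u θ) * u θ * conj (g ((r : ℂ) * u θ)))
      (bound := fun θ => M * ‖g ((r : ℂ) * u θ)‖) (μ := volume) (a := -π) (b := π) (x₀ := w₀)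
      (ball_mem_nhds w₀ (by rw [hR]; linarith : 0 < R - ‖w₀‖)) ?_ ?_ ?_ ?_ ?_ ?_
    · exact h.2.differentiableAt
    · filter_upwards [(isOpen_lt continuous_norm continuous_const).mem_nhds hw₀] with w hw
      exact ((hgc w hw).mul hgr).aestronglyMeasurable
    · exact ((hgc w₀ hw₀).mul hgr).intervalIntegrable _ _
    · refine (Continuous.aestronglyMeasurable ?_)
      refine ((hdg.comp_continuous (continuous_const.mul huc) fun θ => ?_).mul huc).mul hgr
      exact hmem w₀ (mem_ball_self (by rw [hR]; linarith)) θ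
    · refine Eventually.of_forall fun θ _ w hw => ?_
      rw [norm_mul, norm_mul, hun, mul_one, Complex.norm_conj]
      exact mul_le_mul_of_nonneg_right (hM _ (hmem w hw θ)) (norm_nonneg _)
    · exact (continuous_const.mul (hgc r (by rw [hrn]; linarith)).norm).intervalIntegrable _ _
    · refine Eventually.of_forall fun θ _ w hw => ?_
      have hin : w * u θ ∈ ball (0 : ℂ) 1 := closedBall_subset_ball hR1 (hmem w hw θ)
      exact (((hg.differentiableAt (isOpen_ball.mem_nhds hin)).hasDerivAt.comp w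
        ((hasDerivAt_id w).mul_const (u θ))).mul_const _).congr_deriv (by simp)
  set Ir := ∫ θ in (-π)..π, ‖g (circleMap 0 r θ)‖ ^ 2 with hIr
  set Is := ∫ θ in (-π)..π, ‖g (circleMap 0 s θ)‖ ^ 2 with hIs
  have hΦr : Φ r = (Ir : ℂ) := by
    simp only [hΦ, hIr, hcm]
    rw [← intervalIntegral.integral_ofReal]
    refine intervalIntegral.integral_congr fun θ _ => ?_
    simp only [Complex.mul_conj', Complex.ofReal_pow]
  have hfront : ∀ w ∈ frontier (ball (0 : ℂ) s), ‖Φ w‖ ≤ (Is + Ir) / 2 := by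
    intro w hw
    rw [frontier_ball _ hs0.ne', mem_sphere_zero_iff_norm] at hw
    have hwu : ∀ θ, w * u θ = circleMap 0 s (θ + w.arg) := by
      intro θ
      rw [circleMap, zero_add]
      push_cast
      rw [add_mul, Complex.exp_add]
      nth_rewrite 1 [← Complex.norm_mul_exp_arg_mul_I w]
      rw [hw]
      simp only [hu]
      ring
    have hw1 : ‖w‖ < 1 := by rw [hw]; exact hs
    have hca : Continuous fun θ => ‖g (w * u θ)‖ ^ 2 := (hgc w hw1).norm.pow 2
    have hcb : Continuous fun θ => ‖g ((r : ℂ) * u θ)‖ ^ 2 :=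
      (hgc r (by rw [hrn]; linarith)).norm.pow 2
    have hsh : ∫ θ in (-π)..π, ‖g (w * u θ)‖ ^ 2 = Is := by
      simp only [hwu, hIs]
      rw [intervalIntegral.integral_comp_add_right (fun θ => ‖g (circleMap 0 s θ)‖ ^ 2)]
      have hper : Function.Periodic (fun θ => ‖g (circleMap 0 s θ)‖ ^ 2) (2 * π) := fun θ => by
        simp only [periodic_circleMap (0 : ℂ) s θ]
      have := hper.intervalIntegral_add_eq (-π + w.arg) (-π)
      rw [show -π + w.arg + 2 * π = π + w.arg by ring, show -π + 2 * π = π by ring] at this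
      exact this
    calc ‖Φ w‖ ≤ ∫ θ in (-π)..π, ‖g (w * u θ) * conj (g ((r : ℂ) * u θ))‖ :=
          intervalIntegral.norm_integral_le_integral_norm (by linarith [Real.pi_pos])
      _ ≤ ∫ θ in (-π)..π, (‖g (w * u θ)‖ ^ 2 + ‖g ((r : ℂ) * u θ)‖ ^ 2) / 2 := by
          refine intervalIntegral.integral_mono (by linarith [Real.pi_pos])
            (((hgc w hw1).mul hgr).norm.intervalIntegrable _ _)
            (((hca.add hcb).div_const 2).intervalIntegrable _ _) fun θ => ?_
          rw [norm_mul, Complex.norm_conj]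
          nlinarith [sq_nonneg (‖g (w * u θ)‖ - ‖g ((r : ℂ) * u θ)‖)]
      _ = (Is + Ir) / 2 := by
          rw [intervalIntegral.integral_div, intervalIntegral.integral_add
            (hca.intervalIntegrable _ _) (hcb.intervalIntegrable _ _), hsh]
          simp only [hIr, hcm]
  have hdc : DiffContOnCl ℂ Φ (ball 0 s) := by
    refine DifferentiableOn.diffContOnCl fun w hw => (hdiff w ?_).differentiableWithinAt
    have := closure_ball_subset_closedBall hw
    rw [mem_closedBall_zero_iff] at this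
    linarith
  have hmax := Complex.norm_le_of_forall_mem_frontier_norm_le isBounded_ball hdc hfront
    (z := (r : ℂ)) (subset_closure (by rw [mem_ball_zero_iff, hrn]; exact h))
  rw [hΦr, Complex.norm_real, Real.norm_eq_abs] at hmax
  linarith [le_abs_self Ir]

end

end Vale.Agent.P142.Main
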